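import Crest.Agent.N221.Defs
import Crest.Agent.N346.T.Cone
import Crest.Agent.R208.G1
import Crest.Agent.R208.J6
import Mathlib
import Crest.Agent.N221.C.Two
import Crest.Agent.N221.C.Polar
import Crest.Agent.N221.Base
import Crest.Agent.N221.A
import Crest.Agent.N221.C.Lps_Mg
import Crest.Agent.N221.U.Ex
import Crest.Agent.N221.U.Lip
import Crest.Agent.N221.U.Ju
import Crest.Agent.N221.U.Dn
import Crest.Agent.N221.P.Tau
import Crest.Agent.N221.En.All
import Crest.Agent.N221.C.Ex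
import Crest.Agent.N221.H.Defs
import Crest.Agent.N221.H.Lin
import Crest.Agent.R208.MS1b
import Crest.Agent.Lib.ODEFlow
import Crest.Agent.N221.C.Loc

-- ▼ part N221/Top
section

/-! Row 221: S0342 from the toolbox statements and the core (helper71). -/

set_option autoImplicit false

open MeasureTheory Set Filter Topology
open Crest.GeometryTopology.Submanifold
open Crest.Agent.R241.DDefs Crest.Agent.R241.D2
open Crest.Agent.R208.J Crest.Agent.R208.L

namespace Crest.Agent.N221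

theorem ent_congr (hTr : En.StmtTr) {E : Type} [MetricSpace E] [MeasurableSpace E]
    (μ : Measure E) {K : Set E} (hK : MeasurableSet K) (h0 : μ Kᶜ = 0) {T T' : E → E}
    (hm : MapsTo T' K K) (he : EqOn T T' K) :
    ksEntropy μ T = ksEntropy μ T' ∧ Dynamics.coverEntropy T K = Dynamics.coverEntropy T' K := by
  have hm' : MapsTo T K K := fun x hx => by rw [he hx]; exact hm hx
  have hr : hm'.restrict T K K = hm.restrict T' K K := by
    funext x
    exact Subtype.ext (he x.2)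
  refine ⟨?_, ?_⟩
  · rw [hTr E K μ T hm' hK h0, hTr E K μ T' hm hK h0, hr]
  · rw [← Dynamics.coverEntropy_restrict hm', ← Dynamics.coverEntropy_restrict hm, hr]

theorem s0342_of (hGeo : GeoS) (hFlow : FlowS) (hLiou : LiouS) (hPar : ParS) (hTau : TauS)
    (hSys : SysS) (hVol : VolS) (hLps : LpsS) (hTr : En.StmtTr) (hMain : En.StmtMain)
    (core : CoreS)
    (n N : ℕ) (hn : 3 ≤ n) (S : Set (EuclideanSpace ℝ (Fin N))) (hS : IsSubmanifold n N S)
    (hcpt : IsCompact S) (hconn : IsConnected S)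
    (hneg : ∀ p ∈ S, ∀ (f : EuclideanSpace ℝ (Fin n) → EuclideanSpace ℝ (Fin N))
      (V : Set (EuclideanSpace ℝ (Fin n))), IsLocalParam n N S p f V →
      ∀ u v : EuclideanSpace ℝ (Fin n), 0 < gramDet f 0 u v → secNum f 0 u v < 0)
    (Φ : ℝ → EuclideanSpace ℝ (Fin N) × EuclideanSpace ℝ (Fin N) →
      EuclideanSpace ℝ (Fin N) × EuclideanSpace ℝ (Fin N)) (hΦ : IsGeodesicFlow S Φ) :
    ((ksEntropy (liouville S n) (Φ 1) : EReal) = Dynamics.coverEntropy (Φ 1) (unitTangent S))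
      ↔ CurvatureParallel n N S := by
  obtain ⟨a, H, ⟨G⟩⟩ := hGeo n N S hn hS hcpt hconn hneg
  obtain ⟨hU, hF⟩ := hFlow n N _ S G hS
  have hsys := hSys n N a S G H
  obtain ⟨h1, h2⟩ := ent_congr hTr (mu G) (isClosed_US G).measurableSet hsys.carried
    (hsys.maps 1) (fun q hq => hF Φ hΦ q hq 1 : EqOn (Φ 1) (ph G 1) (US G))
  obtain ⟨hA, hB, -⟩ := hMain _ (US G) (ph G) (mu G) (tau G) hsys (hVol n N a S G H).1
    (hVol n N a S G H).2 (hLps n N a S G H)
  rw [hLiou n N _ S G (by omega) hS hcpt, hU, h1, h2, hA, ← hPar n N _ S G hS]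
  exact ⟨fun h => core n N a S G H h,
    fun h => hB fun t z hz => (hTau n N a S G H h z hz).2.2 t⟩

end Crest.Agent.N221
end

-- ▼ part N221/B/Geo
section

/-! Row 221: bridge to the Prelude, `GeoS`, `FlowS`, `RiemS` (helper19). -/

set_option autoImplicit false

open Set Filter Topology
open scoped ContDiff RealInnerProductSpace
open Crest.GeometryTopology.Submanifold
open Crest.Agent.R241.DDefs Crest.Agent.R241.D2
open Crest.Agent.R208.J Crest.Agent.R208.L
open Crest.Agent.R241.D (Tan IsProj range_fderiv_eq_Tan secNum_eq gramDet_eq sff_eq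
  fderiv_eq_sum_pd mem_S)
open Crest.Agent.R208 (T_eq_Tan span_tangentConeAt exists_geo isGeodesicIn_iff norm_deriv_fl)

noncomputable section

namespace Crest.Agent.N221

namespace B

variable {n N : ℕ} {κ : ℝ} {S : Set (Euc N)}

lemma isProj (G : Geo n N κ S) : IsProj S G.P :=
  ⟨G.contDiff_P, fun q hq => by rw [G.P_eq q hq, T_eq_Tan G hq]⟩

lemma exists_pre (G : Geo n N κ S) {p : Euc N} {f : Euc n → Euc N} {V : Set (Euc n)}
    (hf : IsLocalParam n N S p f V) {X : Euc N} (hX : X ∈ G.T p) : ∃ u, fderiv ℝ f 0 u = X := by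
  have hp : p ∈ S := hf.map_zero ▸ mem_S hf hf.zero_mem
  rw [T_eq_Tan G hp, ← hf.map_zero, ← range_fderiv_eq_Tan hf hf.zero_mem] at hX
  exact hX

/-- numerator of the sectional curvature -/
def sec (D : Euc N →L[ℝ] Euc N →L[ℝ] Euc N) (v w : Euc N) : ℝ := ⟪D v v, D w w⟫ - ‖D v w‖ ^ 2

lemma sec_smul (D : Euc N →L[ℝ] Euc N →L[ℝ] Euc N) (a b : ℝ) (v w : Euc N) :
    sec D (a • v) (b • w) = a ^ 2 * b ^ 2 * sec D v w := by
  simp only [sec, map_smul, _root_.smul_apply, real_inner_smul_left,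
    real_inner_smul_right, norm_smul, mul_pow, Real.norm_eq_abs, sq_abs]
  ring

lemma sec_add (D : Euc N →L[ℝ] Euc N →L[ℝ] Euc N) (a : ℝ) {v w : Euc N} (h : D v w = D w v) :
    sec D v (w + a • v) = sec D v w := by
  simp only [sec, map_add, map_smul, _root_.add_apply, _root_.smul_apply]
  rw [← h]
  simp only [inner_add_right, real_inner_smul_right, smul_add, smul_smul]
  rw [norm_add_sq_real, norm_smul, mul_pow, Real.norm_eq_abs, sq_abs, real_inner_smul_right,
    real_inner_self_eq_norm_sq, real_inner_comm (D v w) (D v v)]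
  ring

/-- from orthonormal pairs to all pairs -/
lemma sec_le (D : Euc N →L[ℝ] Euc N →L[ℝ] Euc N) (T : Submodule ℝ (Euc N)) (c : ℝ)
    (hs : ∀ v ∈ T, ∀ w ∈ T, D v w = D w v)
    (h : ∀ v ∈ T, ∀ w ∈ T, ‖v‖ = 1 → ‖w‖ = 1 → ⟪v, w⟫ = 0 → sec D v w ≤ c)
    {v w : Euc N} (hv : v ∈ T) (hw : w ∈ T) :
    sec D v w ≤ c * (‖v‖ ^ 2 * ‖w‖ ^ 2 - ⟪v, w⟫ ^ 2) := by
  rcases eq_or_ne v 0 with rfl | hv0
  · simp [sec]
  have hvn : 0 < ‖v‖ := norm_pos_iff.2 hv0
  obtain ⟨a, ha⟩ : ∃ a : ℝ, ⟪v, w⟫ = a * ‖v‖ ^ 2 := ⟨⟪v, w⟫ / ‖v‖ ^ 2, by field_simp⟩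
  obtain ⟨u, rfl⟩ : ∃ u, w = u + a • v := ⟨w - a • v, by abel⟩
  have hu : u ∈ T := by simpa using T.sub_mem hw (T.smul_mem a hv)
  have ho : ⟪v, u⟫ = 0 := by
    rw [inner_add_right, real_inner_smul_right, real_inner_self_eq_norm_sq] at ha
    linarith
  have hn : ‖u + a • v‖ ^ 2 = ‖u‖ ^ 2 + a ^ 2 * ‖v‖ ^ 2 := by
    rw [norm_add_sq_real, real_inner_smul_right, real_inner_comm, ho, norm_smul, mul_pow,
      Real.norm_eq_abs, sq_abs]
    ring
  rw [sec_add D a (hs v hv u hu), hn, ha]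
  rcases eq_or_ne u 0 with rfl | hu0
  · simp only [sec, map_zero, inner_zero_right, norm_zero]
    exact le_of_eq (by ring)
  have hun : 0 < ‖u‖ := norm_pos_iff.2 hu0
  have h1 := h (‖v‖⁻¹ • v) (T.smul_mem _ hv) (‖u‖⁻¹ • u) (T.smul_mem _ hu)
    (norm_smul_inv_norm hv0) (norm_smul_inv_norm hu0)
    (by rw [real_inner_smul_left, real_inner_smul_right, ho, mul_zero, mul_zero])
  have h2 : sec D v u = ‖v‖ ^ 2 * ‖u‖ ^ 2 * sec D (‖v‖⁻¹ • v) (‖u‖⁻¹ • u) := by
    rw [sec_smul]; field_simp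
  rw [h2]
  calc ‖v‖ ^ 2 * ‖u‖ ^ 2 * sec D (‖v‖⁻¹ • v) (‖u‖⁻¹ • u) ≤ ‖v‖ ^ 2 * ‖u‖ ^ 2 * c := by gcongr
    _ = _ := by ring

lemma sum_coords {p : Euc N} {f : Euc n → Euc N} {V : Set (Euc n)} (hf : IsLocalParam n N S p f V)
    (u : Euc n) (i : Fin n) : coords f 0 (fderiv ℝ f 0 u) i = u i := by
  have hl : LinearIndependent ℝ (pd f 0) := by
    rw [Fintype.linearIndependent_iff]
    intro g hg j
    have h1 : fderiv ℝ f 0 (WithLp.toLp 2 g) = fderiv ℝ f 0 0 := by
      rw [fderiv_eq_sum_pd, map_zero]; exact hg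
    exact congrFun (congrArg WithLp.ofLp (hf.injective_fderiv 0 hf.zero_mem h1)) j
  have hd : IsUnit (metricMat f 0).det :=
    (Matrix.posDef_gram_of_linearIndependent hl).det_pos.ne'.isUnit
  have h1 : ∀ j, ⟪fderiv ℝ f 0 u, pd f 0 j⟫ = (metricMat f 0).mulVec u j := fun j => by
    rw [fderiv_eq_sum_pd, sum_inner]
    simp only [real_inner_smul_left, Matrix.mulVec, dotProduct, metricMat, Matrix.of_apply]
    exact Finset.sum_congr rfl fun k _ => by rw [mul_comm, real_inner_comm]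
  have h2 : (metricMat f 0)⁻¹.mulVec ((metricMat f 0).mulVec u) = u := by
    rw [Matrix.mulVec_mulVec, Matrix.nonsing_inv_mul _ hd, Matrix.one_mulVec]
  simp only [coords, h1]
  exact congrFun h2 i

lemma sffVec_eq (G : Geo n N κ S) {p : Euc N} {f : Euc n → Euc N} {V : Set (Euc n)}
    (hf : IsLocalParam n N S p f V) {X Y : Euc N} (hX : X ∈ G.T p) (hY : Y ∈ G.T p) :
    sffVec f 0 X Y = II G p X Y := by
  obtain ⟨u, rfl⟩ := exists_pre G hf hX
  obtain ⟨v, rfl⟩ := exists_pre G hf hY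
  simp only [sffVec, sum_coords hf, sff_eq (isProj G) hf hf.zero_mem, hf.map_zero, II]
  rw [fderiv_eq_sum_pd f 0 u, fderiv_eq_sum_pd f 0 v]
  simp only [map_sum, map_smul, _root_.sum_apply, _root_.smul_apply,
    Finset.smul_sum, smul_smul]
  rw [Finset.sum_comm]
  simp only [mul_comm]

end B

theorem geoS : GeoS := by
  intro n N S hn hS hc hconn hneg
  obtain ⟨κ, -, ⟨G⟩⟩ := exists_geo hS hc
  have hP := B.isProj G
  let K : Set (TT N × Euc N) := {z | z.1 ∈ US G ∧ (z.1.1, z.2) ∈ US G ∧ ⟪z.1.2, z.2⟫ = 0}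
  have hK : IsCompact K := by
    refine ((hc.prod (isCompact_sphere (0 : Euc N) 1)).prod
      (isCompact_sphere (0 : Euc N) 1)).of_isClosed_subset ?_ ?_
    · exact ((isClosed_US G).preimage continuous_fst).inter
        (((isClosed_US G).preimage (by fun_prop)).inter (isClosed_eq (by fun_prop) continuous_const))
    · exact fun z hz => ⟨⟨hz.1.1.1, by simpa using hz.1.2⟩, by simpa using hz.2.1.2⟩
  have hD : Continuous (fderiv ℝ G.P) := G.contDiff_P.continuous_fderiv (by simp)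
  have hF : Continuous fun z : TT N × Euc N => B.sec (fderiv ℝ G.P z.1.1) z.1.2 z.2 := by
    unfold B.sec
    fun_prop
  have hlt : ∀ z ∈ K, B.sec (fderiv ℝ G.P z.1.1) z.1.2 z.2 < 0 := by
    rintro ⟨⟨x, v⟩, w⟩ ⟨h1, h2, h3⟩
    obtain ⟨f, V, hf⟩ := hS x h1.1.1
    obtain ⟨u, hu⟩ := B.exists_pre G hf h1.1.2
    obtain ⟨u', hu'⟩ := B.exists_pre G hf h2.1.2
    have h4 := hneg x h1.1.1 f V hf u u' (by
      rw [gramDet_eq, hu, hu', h1.2, h2.2, h3]; norm_num)
    rwa [secNum_eq hP hS hf hf.zero_mem, hu, hu', hf.map_zero] at h4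
  obtain ⟨a, ha, hb⟩ : ∃ a : ℝ, 0 < a ∧
      ∀ z ∈ K, B.sec (fderiv ℝ G.P z.1.1) z.1.2 z.2 ≤ -(a ^ 2) := by
    rcases K.eq_empty_or_nonempty with h | h
    · exact ⟨1, one_pos, by simp [h]⟩
    · obtain ⟨z, hz, hm⟩ := hK.exists_isMaxOn h hF.continuousOn
      have h0 := neg_pos.2 (hlt z hz)
      exact ⟨_, Real.sqrt_pos.2 h0, fun y hy => by rw [Real.sq_sqrt h0.le, neg_neg]; exact hm hy⟩
  refine ⟨a, ⟨ha, hS, hc, hconn, hn⟩, ⟨{ G with curv := fun x hx v hv w hw => ?_ }⟩⟩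
  exact B.sec_le (fderiv ℝ G.P x) (G.T x) _ (fun v hv w hw => II_symm G hx hv hw)
    (fun v hv w hw h1 h2 h3 => hb ((x, v), w) ⟨⟨⟨hx, hv⟩, h1⟩, ⟨⟨hx, hw⟩, h2⟩, h3⟩) hv hw

theorem flowS : FlowS := by
  intro n N κ S G hS
  have hU : unitTangent S = US G := by
    ext z
    refine ⟨fun h => ⟨⟨h.1, ?_⟩, h.2.2⟩, fun h => ⟨h.1.1, ?_, h.2⟩⟩
    · rw [T_eq_Tan G h.1, ← span_tangentConeAt hS h.1]; exact h.2.1
    · rw [tangentSpaceAt, span_tangentConeAt hS h.1.1, ← T_eq_Tan G h.1.1]; exact h.1.2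
  refine ⟨hU, fun Φ hΦ q hq t => ?_⟩
  obtain ⟨h1, h2, h3, h4⟩ := hΦ q (hU ▸ hq)
  obtain ⟨q', hq', h5⟩ := (isGeodesicIn_iff hS G).1 h1
  have h6 : (fun t => (Φ t q).1) = fun t => (fl G (q', t)).1 := funext h5
  obtain rfl : q' = q := by
    refine Prod.ext ?_ ?_
    · rw [← h2, h5 0, fl_zero]
    · rw [← h3, h6, (norm_deriv_fl G hq' 0).1, fl_zero]
  refine Prod.ext (h5 t) ?_
  rw [h4 t, h6, (norm_deriv_fl G hq' t).1]
  rfl

theorem riemS : RiemS := by
  intro n N κ S G _ p f V hf X hX Y hY Z hZ W hW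
  rw [riem4, R4, B.sffVec_eq G hf hX hW, B.sffVec_eq G hf hY hZ, B.sffVec_eq G hf hX hZ,
    B.sffVec_eq G hf hY hW]

end Crest.Agent.N221
end
end

-- ▼ part N221/B/Liou
section

/-! Row 221: the Liouville measure of the Prelude is `mu G` (helper37). -/

set_option autoImplicit false

open MeasureTheory Set Filter Topology Metric
open scoped ContDiff RealInnerProductSpace ENNReal
open Crest.GeometryTopology.Submanifold
open Crest.Agent.R241.DDefs Crest.Agent.R241.D2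
open Crest.Agent.R208.J Crest.Agent.R208.L

noncomputable section

namespace Crest.Agent.N221

namespace Liou

variable {n N : ℕ} {κ : ℝ} {S : Set (Euc N)}

theorem exists_c (d : ℕ) : ∃ c : ℝ≥0∞, c ≠ 0 ∧ c ≠ ⊤ ∧
    ∀ N, (Measure.hausdorffMeasure (d : ℝ) : Measure (Euc N)) = c • μHE[d] := by
  have h0 := Measure.addHaarScalarFactor_volume_hausdorffMeasure_ne_zero d
  refine ⟨(Measure.addHaarScalarFactor (volume : Measure (EuclideanSpace ℝ (Fin d))) μH[d] : ℝ≥0∞)⁻¹,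
    ENNReal.inv_ne_zero.2 ENNReal.coe_ne_top, ENNReal.inv_ne_top.2 (ENNReal.coe_ne_zero.2 h0),
    fun N => ?_⟩
  ext s
  rw [Measure.euclideanHausdorffMeasure_def, Measure.smul_apply, Measure.smul_apply, smul_eq_mul,
    ENNReal.smul_def, smul_eq_mul, ← mul_assoc,
    ENNReal.inv_mul_cancel (ENNReal.coe_ne_zero.2 h0) ENNReal.coe_ne_top, one_mul]

theorem fibre (G : Geo (n + 1) N κ S) {p : Euc N} (hp : p ∈ S) :
    (μHE[n] : Measure (Euc N)).restrict {v | v ∈ G.T p ∧ ‖v‖ = 1} = nuF G p := by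
  obtain ⟨A, hA, hAT⟩ := exists_frame G hp
  have hn : ∀ y, ‖A y‖ = ‖y‖ := fun y => by
    rw [← sq_eq_sq₀ (norm_nonneg _) (norm_nonneg _), ← real_inner_self_eq_norm_sq,
      ← real_inner_self_eq_norm_sq, hA]
  have hi : Isometry A := AddMonoidHomClass.isometry_of_norm A hn
  have hm : Measurable fun u : sphere (0 : Euc (n + 1)) 1 => A u :=
    A.continuous.measurable.comp measurable_subtype_coe
  ext B hB
  rw [nuF_eq G (by omega) hp A hA hAT, Measure.map_apply hm hB, Measure.restrict_apply hB,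
    ← N346.T.muHE_sphere (m := n) (by simp) (hm hB), ← hi.euclideanHausdorffMeasure_image]
  congr 1
  ext v
  constructor
  · rintro ⟨h1, h2, h3⟩
    obtain ⟨y, rfl⟩ : v ∈ range A := hAT ▸ h2
    exact ⟨y, ⟨⟨y, mem_sphere_zero_iff_norm.2 (hn y ▸ h3)⟩, h1, rfl⟩, rfl⟩
  · rintro ⟨_, ⟨u, hu, rfl⟩, rfl⟩
    exact ⟨hu, show A u ∈ (G.T p : Set (Euc N)) from hAT ▸ mem_range_self _,
      (hn _).trans (mem_sphere_zero_iff_norm.1 u.2)⟩

theorem measurable_ker (G : Geo n N κ S) (c : ℝ≥0∞) :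
    Measurable fun p : Euc N => c • (nuF G p).map fun v => (p, v) := by
  refine Measure.measurable_of_measurable_coe _ fun B hB => ?_
  have h1 : ∀ p : Euc N, (c • (nuF G p).map fun v => (p, v)) B = c * (cst n * gam (Euc N)
      (Prod.mk p ⁻¹' ((fun z : TT N => (z.1, nrm (G.P z.1 z.2))) ⁻¹' B))) := fun p => by
    rw [Measure.smul_apply, Measure.map_apply measurable_prodMk_left hB, nuF, Measure.smul_apply,
      Measure.map_apply (measurable_nP' G p) (measurable_prodMk_left hB)]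
    rfl
  simp only [h1]
  exact ((measurable_measure_prodMk_left
    ((measurable_fst.prodMk (measurable_nP G)) hB)).const_mul _).const_mul _

theorem bind_eq (G : Geo n N κ S) (c : ℝ≥0∞) (hc : c ≠ ⊤) :
    (((μHE[n] : Measure (Euc N)).restrict S).bind fun p => c • (nuF G p).map fun v => (p, v)) =
      c • nu G := by
  ext B hB
  rw [Measure.bind_apply hB (measurable_ker G c).aemeasurable, Measure.smul_apply, smul_eq_mul,
    ← lintegral_indicator_one hB, lintegral_nu G (measurable_one.indicator hB),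
    ← lintegral_const_mul' _ _ hc]
  refine lintegral_congr fun p => ?_
  rw [Measure.smul_apply, smul_eq_mul, ← lintegral_indicator_one hB,
    lintegral_map (measurable_one.indicator hB) measurable_prodMk_left]

end Liou

open Liou

theorem liouS : LiouS := by
  intro n N κ S G hn hS hc
  obtain ⟨n, rfl⟩ : ∃ m, n = m + 1 := ⟨n - 1, by omega⟩
  obtain ⟨c1, a1, b1, h1⟩ := exists_c (n + 1)
  obtain ⟨c2, a2, b2, h2⟩ := exists_c n
  have h3 : (((Measure.hausdorffMeasure ((n + 1 : ℕ) : ℝ)).restrict S).bind fun p =>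
      ((Measure.hausdorffMeasure (((n + 1 : ℕ) : ℝ) - 1)).restrict
        {v : Euc N | v ∈ tangentSpaceAt S p ∧ ‖v‖ = 1}).map fun v => (p, v)) =
      (c1 * c2) • nu G := by
    rw [show ((n + 1 : ℕ) : ℝ) - 1 = n by push_cast; ring, h1, h2, Measure.restrict_smul,
      Measure.bind_smul, mul_smul, ← bind_eq G c2 b2]
    congr 1
    refine Measure.bind_congr_right ?_
    filter_upwards [ae_restrict_mem hc.measurableSet] with p hp
    rw [Measure.restrict_smul, Measure.map_smul, ← fibre G hp, tangentSpaceAt,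
      R208.span_tangentConeAt hS hp, ← R208.T_eq_Tan G hp]
  have a3 := mul_ne_zero a1 a2
  have b3 := ENNReal.mul_ne_top b1 b2
  rw [liouville, mu, h3, Measure.smul_apply, smul_eq_mul, smul_smul,
    ENNReal.mul_inv (.inl a3) (.inl b3), mul_right_comm, ENNReal.inv_mul_cancel a3 b3, one_mul]

end Crest.Agent.N221
end
end

-- ▼ part N221/U/Ric0
section

/-!
# Row 221: contraction of symmetric Riccati solutions, the calculus part (helper88)
-/

set_option autoImplicit false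

open Set Filter Topology
open scoped RealInnerProductSpace

namespace Crest.Agent.N221.RicH

variable {N : ℕ}

local notation "E" => EuclideanSpace ℝ (Fin N)

/-- the standard basis -/
noncomputable abbrev eb (i : Fin N) : E := EuclideanSpace.basisFun (Fin N) ℝ i

/-- squared Hilbert-Schmidt norm -/
noncomputable def hs (D : E →L[ℝ] E) : ℝ := ∑ i, ‖D (eb i)‖ ^ 2

lemma hs_nonneg (D : E →L[ℝ] E) : 0 ≤ hs D := Finset.sum_nonneg fun _ _ => sq_nonneg _

lemma norm_eb (i : Fin N) : ‖(eb i : E)‖ = 1 := (EuclideanSpace.basisFun (Fin N) ℝ).orthonormal.1 i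

lemma hs_le (D : E →L[ℝ] E) : hs D ≤ N * ‖D‖ ^ 2 := by
  have h : ∀ i ∈ (Finset.univ : Finset (Fin N)), ‖D (eb i)‖ ^ 2 ≤ ‖D‖ ^ 2 := fun i _ =>
    pow_le_pow_left₀ (norm_nonneg _) (by simpa [norm_eb] using D.le_opNorm (eb i)) 2
  simpa [hs] using Finset.sum_le_card_nsmul _ _ _ h

lemma sqrt_hs_le (D : E →L[ℝ] E) : √(hs D) ≤ √N * ‖D‖ := by
  rw [← Real.sqrt_sq (norm_nonneg D), ← Real.sqrt_mul (Nat.cast_nonneg N)]
  exact Real.sqrt_le_sqrt (hs_le D)

lemma norm_le (D : E →L[ℝ] E) : ‖D‖ ≤ √(hs D) := by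
  refine D.opNorm_le_bound (Real.sqrt_nonneg _) fun x => ?_
  have h1 : D x = ∑ i, x i • D (eb i) := by
    conv_lhs => rw [← (EuclideanSpace.basisFun (Fin N) ℝ).sum_repr x]
    simp [map_sum]
  have h2 : ‖D x‖ ≤ ∑ i, ‖D (eb i)‖ * |x i| := by
    rw [h1]
    refine (norm_sum_le _ _).trans (le_of_eq (Finset.sum_congr rfl fun i _ => ?_))
    rw [norm_smul, Real.norm_eq_abs, mul_comm]
  refine h2.trans ((Real.sum_mul_le_sqrt_mul_sqrt _ _ _).trans (le_of_eq ?_))
  rw [EuclideanSpace.norm_eq]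
  rfl

lemma cyc {D W : E →L[ℝ] E} (hD : ∀ x y, ⟪D x, y⟫ = ⟪x, D y⟫) (hW : ∀ x y, ⟪W x, y⟫ = ⟪x, W y⟫) :
    ∑ i, ⟪D (eb i), D (W (eb i))⟫ = ∑ j, ⟪W (D (eb j)), D (eb j)⟫ := by
  have h1 : ∀ i, ⟪D (eb i), D (W (eb i))⟫ = ∑ j, ⟪W (D (eb j)), eb i⟫ * ⟪eb i, D (eb j)⟫ := by
    intro i
    rw [← (EuclideanSpace.basisFun (Fin N) ℝ).sum_inner_mul_inner]
    refine Finset.sum_congr rfl fun j _ => ?_
    rw [hD (eb i), ← hD (eb j) (W (eb i)), hW (D (eb j)), mul_comm]
  simp only [h1]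
  rw [Finset.sum_comm]
  exact Finset.sum_congr rfl fun j _ =>
    (EuclideanSpace.basisFun (Fin N) ℝ).sum_inner_mul_inner _ _

lemma hasDerivAt_hs {D : ℝ → E →L[ℝ] E} {D' : E →L[ℝ] E} {u : ℝ} (h : HasDerivAt D D' u) :
    HasDerivAt (fun u => hs (D u)) (∑ i, 2 * ⟪D u (eb i), D' (eb i)⟫) u := by
  refine HasDerivAt.fun_sum fun i _ => ?_
  have h1 : HasDerivAt (fun u => D u (eb i)) (D' (eb i)) u := by
    simpa using h.clm_apply (hasDerivAt_const u (eb i))
  exact h1.norm_sq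

lemma deriv_le {a : ℝ} {V W F : E →L[ℝ] E} (hV : ∀ x y, ⟪V x, y⟫ = ⟪x, V y⟫)
    (hW : ∀ x y, ⟪W x, y⟫ = ⟪x, W y⟫) (aV : ∀ x, a * ‖x‖ ^ 2 ≤ ⟪V x, x⟫)
    (aW : ∀ x, a * ‖x‖ ^ 2 ≤ ⟪W x, x⟫) :
    ∑ i, 2 * ⟪(V - W) (eb i), (-(V ∘L V) + W ∘L W - F) (eb i)⟫ ≤
      -(4 * a * hs (V - W)) + 2 * √(hs (V - W)) * (√N * ‖F‖) := by
  set D := V - W with hD
  have hDs : ∀ x y, ⟪D x, y⟫ = ⟪x, D y⟫ := fun x y => by
    simp only [hD, sub_apply, inner_sub_left, inner_sub_right, hV, hW]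
  have e : ∀ x, (-(V ∘L V) + W ∘L W - F) x = -V (D x) - D (W x) - F x := fun x => by
    simp only [hD, sub_apply, add_apply,
      neg_apply, ContinuousLinearMap.comp_apply, map_sub]
    abel
  simp only [e, inner_sub_right, inner_neg_right, mul_sub, Finset.sum_sub_distrib, ← Finset.mul_sum,
    Finset.sum_neg_distrib]
  have h1 : a * hs D ≤ ∑ i, ⟪D (eb i), V (D (eb i))⟫ := by
    rw [hs, Finset.mul_sum]
    exact Finset.sum_le_sum fun i _ => (aV _).trans_eq (real_inner_comm _ _)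
  have h2 : a * hs D ≤ ∑ i, ⟪D (eb i), D (W (eb i))⟫ := by
    rw [cyc hDs hW, hs, Finset.mul_sum]
    exact Finset.sum_le_sum fun i _ => aW _
  have h3 : -∑ i, ⟪D (eb i), F (eb i)⟫ ≤ √(hs D) * √(hs F) := by
    refine le_trans ?_ (Real.sum_mul_le_sqrt_mul_sqrt Finset.univ (fun i => ‖D (eb i)‖)
      fun i => ‖F (eb i)‖)
    rw [← Finset.sum_neg_distrib]
    exact Finset.sum_le_sum fun i _ => (neg_le_abs _).trans (abs_real_inner_le_norm _ _)
  have h4 := mul_le_mul_of_nonneg_left (sqrt_hs_le F) (Real.sqrt_nonneg (hs D))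
  linarith

/-- the scalar differential inequality `f' ≤ -4 a f + 2 √f g` -/
lemma scalar {a s t : ℝ} {f f' g : ℝ → ℝ} (ha : 0 < a) (hst : s ≤ t) (hg : ContinuousOn g (Icc s t))
    (hg0 : ∀ u, 0 ≤ g u) (hf0 : ∀ u, 0 ≤ f u) (hf : ∀ u ∈ Icc s t, HasDerivAt f (f' u) u)
    (h : ∀ u ∈ Icc s t, f' u ≤ -(4 * a * f u) + 2 * √(f u) * g u) :
    √(f t) ≤ Real.exp (-(2 * a * (t - s))) * √(f s) +
      ∫ u in s..t, Real.exp (-(2 * a * (t - u))) * g u := by
  have hk : ContinuousOn (fun u => Real.exp (-(2 * a * (t - u))) * g u) (Icc s t) :=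
    (by fun_prop : Continuous fun u => Real.exp (-(2 * a * (t - u)))).continuousOn.mul hg
  refine le_of_forall_pos_le_add fun ε hε => ?_
  have hp : ∀ u, 0 < f u + ε ^ 2 := fun u => by have := hf0 u; positivity
  have hd : ∀ u ∈ Icc s t, HasDerivAt
      (fun u => Real.exp (-(2 * a * (t - u))) * (√(f u + ε ^ 2) - ε))
      (Real.exp (-(2 * a * (t - u))) * (2 * a * (√(f u + ε ^ 2) - ε) +
        f' u / (2 * √(f u + ε ^ 2)))) u := fun u hu => by
    have h1 := ((((hasDerivAt_id u).const_sub t).const_mul (2 * a)).fun_neg).exp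
    refine (h1.fun_mul ((((hf u hu).add_const (ε ^ 2)).sqrt (hp u).ne').sub_const ε)).congr_deriv ?_
    simp only [id]; ring
  have key := intervalIntegral.sub_le_integral_of_hasDeriv_right_of_le hst
    (fun u hu => (hd u hu).continuousAt.continuousWithinAt)
    (fun u hu => (hd u (Ioo_subset_Icc_self hu)).hasDerivWithinAt) (hk.integrableOn_Icc)
    fun u hu => by
      refine mul_le_mul_of_nonneg_left ?_ (Real.exp_pos _).le
      have h1 := h u (Ioo_subset_Icc_self hu)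
      have hq := Real.sqrt_pos.2 (hp u)
      have hq2 := Real.sq_sqrt (hp u).le
      have h2 : √(f u) ≤ √(f u + ε ^ 2) := Real.sqrt_le_sqrt (by linarith [sq_nonneg ε])
      have h3 : ε ≤ √(f u + ε ^ 2) := Real.le_sqrt_of_sq_le (by linarith [hf0 u])
      set q := √(f u + ε ^ 2)
      have h4 : f' u / (2 * q) ≤ g u - 2 * a * (q - ε) := by
        rw [div_le_iff₀ (by positivity)]
        have h5 := mul_le_mul_of_nonneg_right h2 (hg0 u)
        have h6 := mul_le_mul_of_nonneg_left h3 (by positivity : 0 ≤ a * ε)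
        have h7 : a * f u = a * q ^ 2 - a * ε ^ 2 := by rw [hq2]; ring
        linarith
      linarith
  simp only [sub_self, mul_zero, neg_zero, Real.exp_zero, one_mul] at key
  have h1 : √(f t) ≤ √(f t + ε ^ 2) := Real.sqrt_le_sqrt (by linarith [sq_nonneg ε])
  have h2 : √(f s + ε ^ 2) - ε ≤ √(f s) := by
    have : √(f s + ε ^ 2) ≤ √(f s) + ε := Real.sqrt_le_iff.2 ⟨by positivity, by
      have := Real.sq_sqrt (hf0 s)
      have : 0 ≤ √(f s) * ε := by positivity
      linarith⟩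
    linarith
  have h3 := mul_le_mul_of_nonneg_left h2 (Real.exp_pos (-(2 * a * (t - s)))).le
  linarith

theorem ric (a : ℝ) (V W R R' : ℝ → E →L[ℝ] E) (s t : ℝ) (ha : 0 < a) (hst : s ≤ t)
    (hR : ContinuousOn R (Icc s t)) (hR' : ContinuousOn R' (Icc s t))
    (hV : ∀ u ∈ Icc s t, HasDerivAt V (-(V u ∘L V u) - R u) u)
    (hW : ∀ u ∈ Icc s t, HasDerivAt W (-(W u ∘L W u) - R' u) u)
    (sV : ∀ u ∈ Icc s t, ∀ x y, ⟪V u x, y⟫ = ⟪x, V u y⟫)
    (sW : ∀ u ∈ Icc s t, ∀ x y, ⟪W u x, y⟫ = ⟪x, W u y⟫)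
    (aV : ∀ u ∈ Icc s t, ∀ x, a * ‖x‖ ^ 2 ≤ ⟪V u x, x⟫)
    (aW : ∀ u ∈ Icc s t, ∀ x, a * ‖x‖ ^ 2 ≤ ⟪W u x, x⟫) :
    ‖V t - W t‖ ≤ Real.sqrt N * (Real.exp (-(2 * a * (t - s))) * ‖V s - W s‖ +
      ∫ u in s..t, Real.exp (-(2 * a * (t - u))) * ‖R u - R' u‖) := by
  have h := scalar (f := fun u => hs (V u - W u)) (g := fun u => √N * ‖R u - R' u‖)
    (f' := fun u => ∑ i, 2 * ⟪(V u - W u) (eb i),
      (-(V u ∘L V u) + W u ∘L W u - (R u - R' u)) (eb i)⟫) ha hst
    (continuousOn_const.mul (hR.sub hR').norm) (fun u => by positivity) (fun u => hs_nonneg _)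
    (fun u hu => hasDerivAt_hs (D := fun u => V u - W u)
      (((hV u hu).sub (hW u hu)).congr_deriv (by abel)))
    fun u hu => deriv_le (sV u hu) (sW u hu) (aV u hu) (aW u hu)
  have h1 := mul_le_mul_of_nonneg_left (sqrt_hs_le (V s - W s))
    (Real.exp_pos (-(2 * a * (t - s)))).le
  have e : ∫ u in s..t, Real.exp (-(2 * a * (t - u))) * (√N * ‖R u - R' u‖) =
      √N * ∫ u in s..t, Real.exp (-(2 * a * (t - u))) * ‖R u - R' u‖ := by
    rw [← intervalIntegral.integral_const_mul]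
    congr 1; funext u; ring
  rw [e] at h
  linarith [norm_le (V t - W t)]

end Crest.Agent.N221.RicH
end

-- ▼ part N221/U/Ric
section

/-! # Row 221: `RicS` (helper88) -/

set_option autoImplicit false

namespace Crest.Agent.N221

theorem ricS : RicS := fun _ a V W R R' s t => RicH.ric a V W R R' s t

end Crest.Agent.N221
end

-- ▼ part N221/P/Alg
section

/-!
# Row 221, toolbox: `(∇_v R)(·,v)v = 0` for all `v` implies `∇ R = 0` (pure algebra, helper25)

`e u X Y Z W` stands for `⟪(∇_u II)(X,Y), II(Z,W)⟫`, `D e u X Y Z W` for `(∇_u R)(X,Y,Z,W)`.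
-/

set_option autoImplicit false

namespace Crest.Agent.N221.PAlg

variable {V : Type*}

/-- the derivative of the Gauss expression -/
def D (e : V → V → V → V → V → ℝ) (u X Y Z W : V) : ℝ :=
  e u X W Y Z + e u Y Z X W - e u X Z Y W - e u Y W X Z

theorem alg [AddCommGroup V] (e : V → V → V → V → V → ℝ)
    (a1 : ∀ u u' X Y Z W, e (u + u') X Y Z W = e u X Y Z W + e u' X Y Z W)
    (a5 : ∀ u X Y Z W W', e u X Y Z (W + W') = e u X Y Z W + e u X Y Z W')
    (s12 : ∀ u X Y Z W, e u X Y Z W = e X u Y Z W)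
    (s23 : ∀ u X Y Z W, e u X Y Z W = e u Y X Z W)
    (s45 : ∀ u X Y Z W, e u X Y Z W = e u X Y W Z)
    (H : ∀ v w, D e v w v v w = 0) (u X Y Z W : V) : D e u X Y Z W = 0 := by
  have a2 : ∀ u X X' Y Z W, e u (X + X') Y Z W = e u X Y Z W + e u X' Y Z W := by
    intro u X X' Y Z W
    rw [s12, a1, s12 X, s12 X']
  have a3 : ∀ u X Y Y' Z W, e u X (Y + Y') Z W = e u X Y Z W + e u X Y' Z W := by
    intro u X Y Y' Z W
    rw [s23, a2, s23 u Y, s23 u Y']
  have a4 : ∀ u X Y Z Z' W, e u X Y (Z + Z') W = e u X Y Z W + e u X Y Z' W := by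
    intro u X Y Z Z' W
    rw [s45, a5, s45 u X Y W, s45 u X Y W]
  have b1 : ∀ u u' X Y Z W, D e (u + u') X Y Z W = D e u X Y Z W + D e u' X Y Z W := by
    intro u u' X Y Z W; simp only [D, a1]; ring
  have b2 : ∀ u X X' Y Z W, D e u (X + X') Y Z W = D e u X Y Z W + D e u X' Y Z W := by
    intro u X X' Y Z W; simp only [D, a2, a4]; ring
  have b3 : ∀ u X Y Y' Z W, D e u X (Y + Y') Z W = D e u X Y Z W + D e u X Y' Z W := by
    intro u X Y Y' Z W; simp only [D, a2, a4]; ring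
  have b4 : ∀ u X Y Z Z' W, D e u X Y (Z + Z') W = D e u X Y Z W + D e u X Y Z' W := by
    intro u X Y Z Z' W; simp only [D, a3, a5]; ring
  have b5 : ∀ u X Y Z W W', D e u X Y Z (W + W') = D e u X Y Z W + D e u X Y Z W' := by
    intro u X Y Z W W'; simp only [D, a3, a5]; ring
  have k12 : ∀ u X Y Z W, D e u X Y Z W = -D e u Y X Z W := by
    intro u X Y Z W; simp only [D]; ring
  have k34 : ∀ u X Y Z W, D e u X Y Z W = -D e u X Y W Z := by
    intro u X Y Z W; simp only [D]; ring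
  have pair : ∀ u X Y Z W, D e u X Y Z W = D e u Z W X Y := by
    intro u X Y Z W
    simp only [D]
    rw [s23 u Z Y, s45 u Y Z W, s23 u W X, s45 u X W Z, s23 u Z X, s45 u X Z W, s23 u W Y,
      s45 u Y W Z]
    ring
  have B1 : ∀ u X Y Z W, D e u X Y Z W + D e u Y Z X W + D e u Z X Y W = 0 := by
    intro u X Y Z W
    simp only [D]
    rw [s45 u Y W Z X, s23 u Z X, s23 u Y X, s45 u Z W Y X, s23 u Z Y, s45 u X W Z Y]
    ring
  have B2 : ∀ u X Y Z W, D e u X Y Z W + D e X Y u Z W + D e Y u X Z W = 0 := by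
    intro u X Y Z W
    simp only [D]
    rw [s12 X u, s12 X u, s12 Y u, s12 Y u, s12 Y X, s12 Y X]
    ring
  -- partial polarisation of the cubic form `v ↦ D v w v v w`
  have P1 : ∀ u v w, D e u w v v w + D e v w u v w + D e v w v u w = 0 := by
    intro u v w
    have h1 := H (v + u) w
    have h2 := H (v + v + u) w
    simp only [b1, b3, b4] at h1 h2
    linarith [H v w, H u w]
  have K : ∀ u v w, D e u w v v w = 0 := by
    intro u v w
    have h1 := P1 u v w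
    have h2 := P1 u w v
    have h3 := B2 u w v v w
    linarith [pair v w v u w, k12 v u w w v, k34 v w u w v, pair w v w u v, k12 w u v v w,
      k34 w v u v w, k12 u v w w v, k34 u w v w v, k12 v u w v w, k34 v w u v w,
      k12 w v u v w, k12 w v u w v, k34 w u v w v]
  have K1 : ∀ u v w w', D e u w v v w' = 0 := by
    intro u v w w'
    have h1 := K u v (w + w')
    simp only [b2, b5] at h1
    linarith [K u v w, K u v w', pair u w' v v w, k12 u v w w' v, k34 u w v w' v]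
  have k23 : ∀ u X Y Z W, D e u X Y Z W = -D e u X Z Y W := by
    intro u X Y Z W
    have h1 := K1 u (Y + Z) X W
    simp only [b3, b4] at h1
    linarith [K1 u Y X W, K1 u Z X W]
  linarith [B1 u X Y Z W, k23 u Y Z X W, k12 u Y X Z W, k12 u Z X Y W, k23 u X Z Y W]

end Crest.Agent.N221.PAlg
end

-- ▼ part N221/P/Par
section

/-!
# Row 221, toolbox: `Par G ↔ CurvatureParallel n N S` (helper25)
-/

set_option autoImplicit false

open Set Filter Topology
open scoped ContDiff RealInnerProductSpace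
open Crest.GeometryTopology.Submanifold
open Crest.Agent.R241.DDefs Crest.Agent.R241.D2
open Crest.Agent.R208 Crest.Agent.R208.J Crest.Agent.R208.L

noncomputable section

namespace Crest.Agent.N221

namespace PPar

variable {n N : ℕ} {κ : ℝ} {S : Set (Euc N)} (G : Geo n N κ S)

/-- derivative of `II (X, Y)` for parallel `X, Y` along the geodesic with velocity `u` -/
def dII (x u A B : Euc N) : Euc N :=
  fderiv ℝ (fderiv ℝ G.P) x u A B + II G x (II G x u A) B + II G x A (II G x u B)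

/-- `⟪(∇_u II)(A,B), II(C,E)⟫` -/
def ee (x u A B C E : Euc N) : ℝ := ⟪dII G x u A B, II G x C E⟫

variable {G}

lemma hasDerivAt_II {q : TT N} (hq : q ∈ TS G) {A B : Euc N} (hA : A ∈ G.T q.1)
    (hB : B ∈ G.T q.1) (t : ℝ) :
    HasDerivAt (fun s => II G (fl G (q, s)).1 (PT G q s A) (PT G q s B))
      (dII G (fl G (q, t)).1 (fl G (q, t)).2 (PT G q t A) (PT G q t B)) t := by
  have hm := fl_mem G hq t
  have h0 : ContDiff ℝ ∞ (fderiv ℝ G.P) := G.contDiff_P.fderiv_right (by simp)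
  have h1 : HasDerivAt (fun s => fderiv ℝ G.P (fl G (q, s)).1)
      (fderiv ℝ (fderiv ℝ G.P) (fl G (q, t)).1 (fl G (q, t)).2) t :=
    (h0.differentiable (by simp) _).hasFDerivAt.comp_hasDerivAt t
      (hda_fst (hasDerivAt_fl G (complete G hq t)))
  have h2 := hasDerivAt_PT_apply hq t A
  have h3 := hasDerivAt_PT_apply hq t B
  rw [Om_tangent hm (PT_mem hq t hA)] at h2
  rw [Om_tangent hm (PT_mem hq t hB)] at h3
  exact (h1.clm_apply h2).clm_apply h3

lemma dII_symm {x u A B : Euc N} (hx : x ∈ S) (hu : u ∈ G.T x) (hA : A ∈ G.T x)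
    (hB : B ∈ G.T x) : dII G x u A B = dII G x u B A := by
  have hq : (x, u) ∈ TS G := ⟨hx, hu⟩
  have h1 := hasDerivAt_II hq hA hB 0
  have h2 := hasDerivAt_II hq hB hA 0
  have h3 : (fun s => II G (fl G ((x, u), s)).1 (PT G (x, u) s A) (PT G (x, u) s B)) =
      fun s => II G (fl G ((x, u), s)).1 (PT G (x, u) s B) (PT G (x, u) s A) :=
    funext fun s => II_symm G (fl_mem G hq s).1 (PT_mem hq s hA) (PT_mem hq s hB)
  rw [h3] at h1
  simpa [fl_zero] using h1.unique h2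

lemma ee_s12 {x u A B C E : Euc N} (hx : x ∈ S) (hu : u ∈ G.T x) (hA : A ∈ G.T x)
    (hB : B ∈ G.T x) (hC : C ∈ G.T x) (hE : E ∈ G.T x) : ee G x u A B C E = ee G x A u B C E := by
  have key : ∀ a ∈ G.T x, ∀ b ∈ G.T x, ⟪II G x a (II G x b B), II G x C E⟫ = 0 := by
    intro a ha b hb
    have h1 : G.P x (II G x a (II G x b B)) = II G x a (II G x b B) :=
      P_dP_normal hx ha (II_normal G hx hb hB)
    rw [← h1, inner_P_left G hx, II_normal G hx hC hE, inner_zero_right]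
  have hs : fderiv ℝ (fderiv ℝ G.P) x u A = fderiv ℝ (fderiv ℝ G.P) x A u :=
    (G.contDiff_P.contDiffAt.isSymmSndFDerivAt (n := ∞) Crest.Agent.R241.D3b.min_le).eq u A
  simp only [ee, dII, inner_add_left]
  rw [key A hA u hu, key u hu A hA, hs, II_symm G hx hu hA]

lemma hasDerivAt_R4 {q : TT N} (hq : q ∈ TS G) {A B C E : Euc N} (hA : A ∈ G.T q.1)
    (hB : B ∈ G.T q.1) (hC : C ∈ G.T q.1) (hE : E ∈ G.T q.1) (t : ℝ) :
    HasDerivAt (fun s => R4 G (fl G (q, s)).1 (PT G q s A) (PT G q s B) (PT G q s C) (PT G q s E))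
      (PAlg.D (ee G (fl G (q, t)).1) (fl G (q, t)).2 (PT G q t A) (PT G q t B) (PT G q t C)
        (PT G q t E)) t := by
  refine (((hasDerivAt_II hq hA hE t).inner ℝ (hasDerivAt_II hq hB hC t)).sub
    ((hasDerivAt_II hq hA hC t).inner ℝ (hasDerivAt_II hq hB hE t))).congr_deriv ?_
  simp only [PAlg.D, ee]
  rw [real_inner_comm (dII G _ _ (PT G q t B) (PT G q t C)),
    real_inner_comm (dII G _ _ (PT G q t B) (PT G q t E))]
  ring

lemma inner_Rh_eq {q : TT N} (hq : q ∈ TS G) {w w' : Euc N} (hw : w ∈ G.T q.1) (t : ℝ) :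
    ⟪Rh G q t w, w'⟫ =
      R4 G (fl G (q, t)).1 (PT G q t w) (PT G q t q.2) (PT G q t q.2) (PT G q t w') := by
  have hm := fl_mem G hq t
  rw [Rh_apply, inner_PTi_left, inner_Rm_tangent hm (PT_mem hq t hw), PT_velocity hq, R4,
    II_symm G hm.1 (PT_mem hq t hw) hm.2, real_inner_comm]
  rfl

lemma D_smul (x v w : Euc N) (r : ℝ) :
    PAlg.D (ee G x) (r • v) w (r • v) (r • v) w = r ^ 3 * PAlg.D (ee G x) v w v v w := by
  simp only [PAlg.D, ee, dII, II, map_smul, smul_apply, ← smul_add,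
    real_inner_smul_left, real_inner_smul_right]
  ring

lemma D_eq_zero (h : Par G) {x u A B C E : Euc N} (hx : x ∈ S) (hu : u ∈ G.T x)
    (hA : A ∈ G.T x) (hB : B ∈ G.T x) (hC : C ∈ G.T x) (hE : E ∈ G.T x) :
    PAlg.D (ee G x) u A B C E = 0 := by
  have h1 : ∀ v ∈ G.T x, ‖v‖ = 1 → ∀ w ∈ G.T x, PAlg.D (ee G x) v w v v w = 0 := by
    intro v hv h1 w hw
    have hq : (x, v) ∈ TS G := ⟨hx, hv⟩
    have h2 := hasDerivAt_R4 hq hw hv hv hw 0
    have h3 : (fun s => R4 G (fl G ((x, v), s)).1 (PT G (x, v) s w) (PT G (x, v) s v)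
        (PT G (x, v) s v) (PT G (x, v) s w)) = fun _ => ⟪Rm G (x, v) w, w⟫ :=
      funext fun s => by rw [← h (x, v) ⟨hq, h1⟩ s, inner_Rh_eq hq hw]
    rw [h3] at h2
    simpa [fl_zero] using h2.unique (hasDerivAt_const _ _)
  have h2 : ∀ v ∈ G.T x, ∀ w ∈ G.T x, PAlg.D (ee G x) v w v v w = 0 := by
    intro v hv w hw
    rcases eq_or_ne v 0 with h0 | h0
    · have := D_smul (G := G) x v w 0
      rw [zero_smul] at this
      rw [h0, this]; simp
    · have h3 := h1 (‖v‖⁻¹ • v) ((G.T x).smul_mem _ hv) (norm_smul_inv_norm h0) w hw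
      rw [D_smul] at h3
      exact (mul_eq_zero.1 h3).resolve_left (pow_ne_zero _ (inv_ne_zero (norm_ne_zero_iff.2 h0)))
  refine PAlg.alg (V := G.T x) (fun u A B C E => ee G x u A B C E) ?_ ?_ ?_ ?_ ?_
    (fun v w => h2 v v.2 w w.2) ⟨u, hu⟩ ⟨A, hA⟩ ⟨B, hB⟩ ⟨C, hC⟩ ⟨E, hE⟩
  · intro u u' A B C E
    simp only [ee, dII, II, Submodule.coe_add, map_add, add_apply,
      inner_add_left]
    ring
  · intro u A B C E E'
    simp only [ee, II, Submodule.coe_add, map_add, inner_add_right]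
  · intro u A B C E
    exact ee_s12 hx u.2 A.2 B.2 C.2 E.2
  · intro u A B C E
    simp only [ee]
    rw [dII_symm hx u.2 A.2 B.2]
  · intro u A B C E
    simp only [ee]
    rw [II_symm G hx C.2 E.2]

lemma tan_eq (hS : IsSubmanifold n N S) {x : Euc N} (hx : x ∈ S) :
    tangentSpaceAt S x = G.T x := by
  rw [T_eq_Tan G hx, ← span_tangentConeAt hS hx]
  rfl

lemma parallel_eq (hS : IsSubmanifold n N S) {q : TT N} (hq : q ∈ TS G) {Y : ℝ → Euc N}
    (hY : IsParallelAlong S (fun t => (fl G (q, t)).1) Y) :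
    Y 0 ∈ G.T q.1 ∧ ∀ t, Y t = PT G q t (Y 0) := by
  have hm : ∀ t, Y t ∈ G.T (fl G (q, t)).1 := fun t => by
    rw [← tan_eq hS (fl_mem G hq t).1]; exact hY.2.1 t
  refine ⟨by simpa [fl_zero] using hm 0, eq_PT hq fun t => ?_⟩
  have h0 := fl_mem G hq t
  have h1 := hasDerivAt_deriv_of_contDiff hY.1 t
  have h2 := (hasDerivAt_P_comp G (hda_fst (hasDerivAt_fl G (complete G hq t)))).clm_apply h1
  have h3 : (fun s => G.P (fl G (q, s)).1 (Y s)) = Y :=
    funext fun s => (P_eq_self G (fl_mem G hq s).1).1 (hm s)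
  have h4 : G.P (fl G (q, t)).1 (deriv Y t) = 0 := by
    rw [← P_eq_zero G h0.1, ← tan_eq hS h0.1]; exact hY.2.2 t
  rw [h3, h4, add_zero] at h2
  rw [Om_tangent h0 (hm t)]
  exact h2

lemma parallel_PT (hS : IsSubmanifold n N S) {q : TT N} (hq : q ∈ TS G) {w : Euc N}
    (hw : w ∈ G.T q.1) : IsParallelAlong S (fun t => (fl G (q, t)).1) fun t => PT G q t w := by
  refine ⟨(contDiff_PT hq).clm_apply contDiff_const, fun t => ?_, fun t => ?_⟩
  · rw [tan_eq (G := G) hS (fl_mem G hq t).1]; exact PT_mem hq t hw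
  · have h0 := fl_mem G hq t
    rw [tan_eq (G := G) hS h0.1, (hasDerivAt_PT_apply hq t w).deriv, P_eq_zero G h0.1,
      Om_tangent h0 (PT_mem hq t hw)]
    exact dP_tangent_normal h0 (PT_mem hq t hw)

end PPar

open PPar in
theorem parS (hR : RiemS) : ParS := by
  intro n N κ S G hS
  constructor
  · intro h γ Y Z W U hγ hY hZ hW hU
    obtain ⟨q, hq, hγq⟩ := (isGeodesicIn_iff hS G).1 hγ
    obtain rfl : γ = fun t => (fl G (q, t)).1 := funext hγq
    obtain ⟨y0, y1⟩ := parallel_eq hS hq hY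
    obtain ⟨z0, z1⟩ := parallel_eq hS hq hZ
    obtain ⟨w0, w1⟩ := parallel_eq hS hq hW
    obtain ⟨u0, u1⟩ := parallel_eq hS hq hU
    have hd := fun t => (hasDerivAt_R4 hq y0 z0 w0 u0 t).congr_deriv
      (D_eq_zero h (fl_mem G hq t).1 (fl_mem G hq t).2 (PT_mem hq t y0) (PT_mem hq t z0)
        (PT_mem hq t w0) (PT_mem hq t u0))
    refine ⟨_, fun t f V hf => Eq.trans ?_ (eq_of_hasDerivAt_zero hd t)⟩
    rw [y1 t, z1 t, w1 t, u1 t, hR n N κ S G hS _ f V hf _ (PT_mem hq t y0) _ (PT_mem hq t z0)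
      _ (PT_mem hq t w0) _ (PT_mem hq t u0)]
  · intro h q hq t
    have hq' := hq.1
    have key : ∀ w ∈ G.T q.1, ∀ w' ∈ G.T q.1, ⟪Rh G q t w, w'⟫ = ⟪Rh G q 0 w, w'⟫ := by
      intro w hw w' hw'
      obtain ⟨c, hc⟩ := h _ _ _ _ _ ((isGeodesicIn_iff hS G).2 ⟨q, hq', fun _ => rfl⟩)
        (parallel_PT hS hq' hw) (parallel_PT hS hq' hq'.2) (parallel_PT hS hq' hq'.2)
        (parallel_PT hS hq' hw')
      have h1 : ∀ s, ⟪Rh G q s w, w'⟫ = c := by
        intro s
        obtain ⟨f, V, hf⟩ := hS _ (fl_mem G hq' s).1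
        rw [inner_Rh_eq hq' hw, ← hR n N κ S G hS _ f V hf _ (PT_mem hq' s hw) _
          (PT_mem hq' s hq'.2) _ (PT_mem hq' s hq'.2) _ (PT_mem hq' s hw')]
        exact hc s f V hf
      rw [h1, h1]
    have h0 : Rh G q 0 = Rm G q := by
      ext1 w
      rw [Rh_apply, fl_zero, PT_zero, PTi_zero_apply]
      rfl
    rw [← h0]
    ext1 w
    refine ext_inner_right ℝ fun w' => ?_
    have h2 : ∀ s, ⟪Rh G q s w, w'⟫ = ⟪Rh G q s (G.P q.1 w), G.P q.1 w'⟫ := fun s => by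
      rw [Rh_P hq', ← inner_P_left G hq'.1, (P_eq_self G hq'.1).1 (Rh_mem hq' s w)]
    rw [h2, h2, key _ (P_mem G hq'.1) _ (P_mem G hq'.1)]

end Crest.Agent.N221
end
end

-- ▼ part N221/C/Vol
section

/-!
Row 221, block C: the volume lemma.
-/

set_option autoImplicit false
set_option linter.unusedSectionVars false
set_option linter.unusedVariables false

open MeasureTheory Set Filter Topology
open scoped ContDiff RealInnerProductSpace ENNReal
open Crest.GeometryTopology.Submanifold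
open Crest.Agent.R241.DDefs Crest.Agent.R241.D2
open Crest.Agent.R208.J Crest.Agent.R208.L

noncomputable section

namespace Crest.Agent.N221.Cov

variable {n N : ℕ} {a : ℝ} {S : Set (Euc N)} {G : Geo n N (-(a ^ 2)) S} (C : Cov G)

namespace Vol

/-- closed Bowen ball -/
def cB (G : Geo n N (-(a ^ 2)) S) (t ε : ℝ) (z : TT N) : Set (TT N) :=
  {y | y ∈ US G ∧ ∀ s ∈ Icc (0 : ℝ) t, dist (fl G (y, s)) (fl G (z, s)) ≤ ε}

lemma measurableSet_cB (t ε : ℝ) (z : TT N) : MeasurableSet (cB G t ε z) := by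
  have h : cB G t ε z = US G ∩ ⋂ s ∈ Icc (0 : ℝ) t,
      US G ∩ (fun y => fl G (y, s)) ⁻¹' Metric.closedBall (fl G (z, s)) ε := by
    ext y
    simp only [cB, mem_ofPred_eq, mem_inter_iff, mem_iInter, mem_preimage, Metric.mem_closedBall]
    exact and_congr_right fun hy => ⟨fun h s hs => ⟨hy, h s hs⟩, fun h s hs => (h s hs).2⟩
  rw [h]
  refine ((isClosed_US G).inter (isClosed_biInter fun s _ => ?_)).measurableSet
  refine ContinuousOn.preimage_isClosed_of_isClosed ?_ (isClosed_US G) Metric.isClosed_closedBall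
  exact (continuousOn_fl G).comp (f := fun y => (y, s)) (by fun_prop) fun y hy => ⟨hy.1, mem_univ _⟩

lemma nu_slice {B : Set (TT N)} (hB : MeasurableSet B) :
    nu G B = ∫⁻ p in S, nuF G p (Prod.mk p ⁻¹' B) ∂μHE[n] := by
  rw [← lintegral_indicator_one hB, lintegral_nu G (measurable_one.indicator hB)]
  refine lintegral_congr fun p => ?_
  rw [← lintegral_indicator_one (measurable_prodMk_left hB)]
  rfl

lemma mu_eq (h : IsProbabilityMeasure (mu G)) :
    ∃ m : ℝ, 0 < m ∧ ∀ A, mu G A = ENNReal.ofReal m * nu G A := by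
  have h1 : (nu G univ)⁻¹ * nu G univ = 1 := h.measure_univ
  have h2 : nu G univ ≠ 0 := fun e => by simp [e] at h1
  have h3 : nu G univ ≠ ⊤ := fun e => by simp [e] at h1
  refine ⟨(nu G univ)⁻¹.toReal, ENNReal.toReal_pos (ENNReal.inv_ne_zero.2 h3)
    (ENNReal.inv_ne_top.2 h2), fun A => ?_⟩
  rw [ENNReal.ofReal_toReal (ENNReal.inv_ne_top.2 h2)]
  rfl

lemma pr_gd {x : Euc n} {v : Euc N} (h : C.Un x v) (s : ℝ) :
    C.pr (C.gd x v s) = (fl G ((C.pr x, v), s)).1 := by rw [C.up_gd h.mem]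

lemma norm_fst_le (q q' : TT N) : ‖q.1 - q'.1‖ ≤ dist q q' := by
  rw [← dist_eq_norm, Prod.dist_eq]
  exact le_max_left _ _

lemma measurable_dd (y : Euc n) : Measurable fun x => C.dd y x :=
  (C.continuous_dd.comp (Continuous.prodMk_right y)).measurable

lemma le_ofReal_div {c K : ℝ} (hc : 0 < c) {x : ℝ≥0∞} (h : ENNReal.ofReal c * x ≤ ENNReal.ofReal K) :
    x ≤ ENNReal.ofReal (K / c) := by
  rwa [ENNReal.ofReal_div_of_pos hc, ENNReal.le_div_iff_mul_le (Or.inl (by simpa using hc))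
    (Or.inl ENNReal.ofReal_ne_top), mul_comm]

lemma ofReal_div_le {c K : ℝ} (hc : 0 < c) {x : ℝ≥0∞} (h : ENNReal.ofReal K ≤ ENNReal.ofReal c * x) :
    ENNReal.ofReal (K / c) ≤ x := by
  rw [ENNReal.ofReal_div_of_pos hc]
  exact ENNReal.div_le_of_le_mul' h

variable (H : Hyp n N a S)
include C H

/-- upper bound for the slices -/
lemma slice_up (hHol : UHolS) (hDn : DnS) : ∃ ε K : ℝ, 0 < ε ∧ 0 < K ∧ ∀ z ∈ US G, ∀ t, 1 ≤ t →
    ∀ p ∈ S, nuF G p (Prod.mk p ⁻¹' cB G t ε z) ≤ ENNReal.ofReal (K * Real.exp (-St G t z)) := by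
  obtain ⟨r0, hr0, -, hlift⟩ := C.exists_r0 H
  obtain ⟨ε₀, hε₀, hclose⟩ := C.lift_close H
  obtain ⟨hadd, B, hB, hSt⟩ := St_basic H hHol
  obtain ⟨θ, Kb, -, -, hbow⟩ := C.bowen H hHol
  obtain ⟨D, hD, hDn⟩ := hDn n N a S G H
  obtain ⟨K, hK, hvol⟩ := C.vol_ball_le H 2
  obtain ⟨ε, hε, h1, h2, h3⟩ : ∃ ε : ℝ, 0 < ε ∧ ε ≤ r0 ∧ ε ≤ ε₀ ∧ 2 * ε ≤ 1 :=
    ⟨min r0 (min ε₀ (1 / 2)), by positivity, min_le_left _ _,
      (min_le_right _ _).trans (min_le_left _ _), by
        have := (min_le_right r0 _).trans (min_le_right ε₀ (1 / 2)); linarith⟩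
  refine ⟨ε, K * D * Real.exp (B + Kb), hε, by positivity, fun z hz t ht p hp => ?_⟩
  rcases (Prod.mk p ⁻¹' cB G t ε z).eq_empty_or_nonempty with h0 | ⟨u0, hu0⟩
  · rw [h0, measure_empty]; exact zero_le
  obtain ⟨z1, v₀⟩ := z
  obtain ⟨x₀, rfl, hx₀⟩ := C.exists_un hz
  have h4 : ‖C.pr x₀ - p‖ ≤ ε := by
    have := hu0.2 0 ⟨le_rfl, by linarith⟩
    rw [fl_zero, fl_zero, dist_comm] at this
    exact (norm_fst_le (C.pr x₀, v₀) (p, u0)).trans this
  obtain ⟨x, rfl, hx⟩ := hlift x₀ p hp (h4.trans h1)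
  set c : ℝ := Real.exp (St G t (C.pr x₀, v₀) - (B + Kb)) / D with hc
  have hc0 : 0 < c := by positivity
  have hF : MeasurableSet {y | C.dd (C.gd x₀ v₀ t) y ≤ 2} :=
    measurableSet_le (measurable_dd C _) measurable_const
  have key : ENNReal.ofReal c * nuF G (C.pr x) (Prod.mk (C.pr x) ⁻¹' cB G t ε (C.pr x₀, v₀)) ≤
      ENNReal.ofReal K := by
    refine le_trans ?_ (hvol (C.gd x₀ v₀ t))
    rw [← lintegral_indicator_one hF, C.polar H x (measurable_one.indicator hF),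
      ← lintegral_indicator_const (measurable_prodMk_left (measurableSet_cB _ _ _))]
    refine lintegral_mono fun u => indicator_apply_le' (fun hu => ?_) fun _ => zero_le
    have hU : C.Un x u := hu.1
    have h5 : C.dd (C.gd x₀ v₀ t) (C.gd x u t) ≤ 2 * ε := by
      refine hclose ε h2 _ _ 0 t (C.contDiff_gd_t _ _).continuous.continuousOn
        (C.contDiff_gd_t _ _).continuous.continuousOn ?_ (fun s hs => ?_) t ⟨by linarith, le_rfl⟩
      · rw [C.gd_zero, C.gd_zero]; linarith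
      · rw [pr_gd C hx₀, pr_gd C hU]
        refine (norm_fst_le _ _).trans ?_
        rw [dist_comm]
        exact hu.2 s hs
    have h6 := (hbow x₀ v₀ x u hx₀ hU t t 1 (by linarith) (by linarith) le_rfl (by linarith)
      (by linarith)).1
    calc ENNReal.ofReal c = ∫⁻ _ in Icc t (t + 1), ENNReal.ofReal c := by simp
      _ ≤ ∫⁻ s in Icc t (t + 1), ENNReal.ofReal (Dn G (C.pr x, u) 0 s) *
          {y | C.dd (C.gd x₀ v₀ t) y ≤ 2}.indicator 1 (C.gd x u s) := by
        refine setLIntegral_mono' measurableSet_Icc fun s hs => ?_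
        have h7 : |s - t| ≤ 1 := abs_le.2 ⟨by linarith [hs.1], by linarith [hs.2]⟩
        have h8 : C.dd (C.gd x₀ v₀ t) (C.gd x u s) ≤ 2 := by
          have := C.dd_triangle H.a_pos.le (C.gd x₀ v₀ t) (C.gd x u t) (C.gd x u s)
          rw [hU.dd_gd] at this
          linarith
        rw [indicator_of_mem (show _ ∈ {y | C.dd (C.gd x₀ v₀ t) y ≤ 2} from h8), Pi.one_apply,
          mul_one]
        refine ENNReal.ofReal_le_ofReal ?_
        rw [hc, div_le_iff₀' hD]
        refine le_trans (Real.exp_le_exp.2 ?_) ((hDn _ hU).2 s (ht.trans hs.1))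
        have h9 := hadd _ hU t (s - t)
        have h10 := hSt _ (fl_US hU t) (s - t)
        rw [add_sub_cancel] at h9
        nlinarith [abs_le.1 h6, neg_abs_le (St G (s - t) (fl G ((C.pr x, u), t)))]
      _ ≤ _ := lintegral_mono_set fun s hs => lt_of_lt_of_le (by linarith) hs.1
  refine (le_ofReal_div hc0 key).trans (le_of_eq ?_)
  rw [hc, Real.exp_sub, Real.exp_neg]
  congr 1
  field_simp

/-- lower bound for the slices -/
lemma slice_low (hHol : UHolS) (hDn : DnS) {ε : ℝ} (hε : 0 < ε) : ∃ δ c : ℝ, 0 < δ ∧ 0 < c ∧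
    ∀ z ∈ US G, ∀ t, 2 ≤ t → ∀ p ∈ S ∩ Metric.ball z.1 δ,
      ENNReal.ofReal (c * Real.exp (-St G t z)) ≤ nuF G p (Prod.mk p ⁻¹' cB G t ε z) := by
  obtain ⟨r0, hr0, -, hlift⟩ := C.exists_r0 H
  obtain ⟨Ks, hKs, hseg⟩ := C.seg_up H
  obtain ⟨θ, Kb, -, -, hbow⟩ := C.bowen H hHol
  obtain ⟨D, hD, hDn⟩ := hDn n N a S G H
  obtain ⟨δ, hδ, h1, h2, h3⟩ : ∃ δ : ℝ, 0 < δ ∧ δ ≤ r0 ∧ 2 * δ ≤ 1 ∧ Ks * (2 * δ) ≤ ε := by
    refine ⟨min r0 (min (1 / 2) (ε / (2 * Ks))), by positivity, min_le_left _ _, ?_, ?_⟩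
    · have := (min_le_right r0 _).trans (min_le_left (1 / 2) (ε / (2 * Ks))); linarith
    · have := (min_le_right r0 _).trans (min_le_right (1 / 2) (ε / (2 * Ks)))
      rw [le_div_iff₀ (by positivity)] at this
      linarith
  obtain ⟨c, hc, hvol⟩ := C.vol_ball_ge H (R := 2 * δ) (by positivity)
  refine ⟨δ, c / (4 * D * Real.exp Kb), hδ, by positivity, fun z hz t ht p hp => ?_⟩
  obtain ⟨z1, v₀⟩ := z
  obtain ⟨x₀, rfl, hx₀⟩ := C.exists_un hz
  have h4 : ‖C.pr x₀ - p‖ ≤ δ := by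
    rw [← dist_eq_norm, dist_comm]
    exact le_of_lt hp.2
  obtain ⟨x, rfl, hx⟩ := hlift x₀ p hp.1 (h4.trans h1)
  set K : ℝ := D * Real.exp (St G t (C.pr x₀, v₀) + Kb) with hK
  have hK0 : 0 < K := by positivity
  have hF : MeasurableSet {y | C.dd (C.gd x₀ v₀ t) y < 2 * δ} :=
    measurableSet_lt (measurable_dd C _) measurable_const
  have key : ENNReal.ofReal c ≤ ENNReal.ofReal (K * 4) *
      nuF G (C.pr x) (Prod.mk (C.pr x) ⁻¹' cB G t ε (C.pr x₀, v₀)) := by
    refine (hvol (C.gd x₀ v₀ t)).trans ?_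
    rw [← lintegral_indicator_one hF, C.polar H x (measurable_one.indicator hF),
      ← lintegral_indicator_const (measurable_prodMk_left (measurableSet_cB _ _ _))]
    refine lintegral_mono_ae ((ae_nuF H hp.1).mono fun u hU => ?_)
    have hU : C.Un x u := hU
    calc _ ≤ ∫⁻ s in Ioi (0 : ℝ), (Icc (t - 2) (t + 2)).indicator (fun _ =>
          (Prod.mk (C.pr x) ⁻¹' cB G t ε (C.pr x₀, v₀)).indicator (fun _ => ENNReal.ofReal K) u) s := by
          refine setLIntegral_mono' measurableSet_Ioi fun s hs => ?_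
          by_cases h5 : C.gd x u s ∈ {y | C.dd (C.gd x₀ v₀ t) y < 2 * δ}
          swap
          · rw [indicator_of_notMem h5, mul_zero]; exact zero_le
          have h6 : C.dd (C.gd x₀ v₀ t) (C.gd x u s) ≤ 2 * δ := le_of_lt h5
          have h7 : C.dd x₀ x ≤ 2 * δ := by linarith
          have h8 := abs_le.1 (C.seg_close H hx₀ hU (by linarith) (le_of_lt hs) h7 h6).1
          have h9 : u ∈ Prod.mk (C.pr x) ⁻¹' cB G t ε (C.pr x₀, v₀) := ⟨hU, fun r hr => by
            rw [dist_comm]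
            exact (hseg x₀ v₀ x u hx₀ hU t s _ ht (le_of_lt hs) h7 h6 r hr).trans h3⟩
          have h10 := abs_le.1 (hbow x₀ v₀ x u hx₀ hU t s _ (by linarith) (le_of_lt hs) h2 h7 h6).1
          rw [indicator_of_mem h5, Pi.one_apply, mul_one,
            indicator_of_mem (show s ∈ Icc (t - 2) (t + 2) from ⟨by linarith, by linarith⟩),
            indicator_of_mem h9]
          refine ENNReal.ofReal_le_ofReal (((hDn _ hU).1 s (le_of_lt hs)).trans ?_)
          exact mul_le_mul_of_nonneg_left (Real.exp_le_exp.2 (by linarith)) hD.le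
      _ ≤ ∫⁻ s, (Icc (t - 2) (t + 2)).indicator (fun _ =>
          (Prod.mk (C.pr x) ⁻¹' cB G t ε (C.pr x₀, v₀)).indicator (fun _ => ENNReal.ofReal K) u) s :=
          setLIntegral_le_lintegral _ _
      _ = _ := by
          rw [lintegral_indicator_const measurableSet_Icc, Real.volume_Icc,
            show t + 2 - (t - 2) = 4 by ring, ENNReal.ofReal_mul hK0.le]
          by_cases h5 : u ∈ Prod.mk (C.pr x) ⁻¹' cB G t ε (C.pr x₀, v₀)
          · rw [indicator_of_mem h5, indicator_of_mem h5]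
          · rw [indicator_of_notMem h5, indicator_of_notMem h5, zero_mul]
  refine le_trans (le_of_eq ?_) (ofReal_div_le (by positivity) key)
  rw [hK, Real.exp_add, Real.exp_neg]
  congr 1
  field_simp

end Vol

variable (H : Hyp n N a S)
include C H

/-- Let `z = (pr x₀, v₀)`, `y₀ = gd x₀ v₀ t`, `t ≥ 1` (small `t`: `μ ≤ 1`, `St_basic`).
`nu B ≤ μHE S * sup_p nuF p (slice)` (`lintegral_nu`; `fB` is relatively open in `US`, hence
measurable).  If the slice over `p` is nonempty lift `p` to `x` (`exists_r0`); for `u` in the slice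
`dd y₀ (gd x u t) ≤ 2ε` (`lift_close`), so by `polar` at `x`
`K ≥ vol {dd y₀ · ≤ 2} ≥ ∫_{slice} ∫_t^{t+1} Dn ≥ nuF(slice) * c e^{St t z}` (`DnS`, `bowen`,
`St_basic`). -/
lemma volUp (hMu : MuS) (hHol : UHolS) (hDn : DnS) : En.VolUp (US G) (ph G) (mu G) (tau G) := by
  obtain ⟨ε, K, hε, hK, h⟩ := Vol.slice_up C H hHol hDn
  obtain ⟨-, B, hB, hSt⟩ := St_basic H hHol
  have hP := (hMu n N a S G H).2.2.1
  obtain ⟨m, hm, hmu⟩ := Vol.mu_eq hP
  have hM := (muHE_lt_top H.sub H.cpt).ne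
  have hM0 : 0 ≤ (μHE[n] S).toReal := ENNReal.toReal_nonneg
  refine ⟨ε, hε, m * K * (μHE[n] S).toReal + Real.exp B, by positivity, fun z hz t ht => ?_⟩
  change _ ≤ _ * Real.exp (-St G t z)
  have he := Real.exp_pos (-St G t z)
  rcases le_total t 1 with h1 | h1
  · have h2 : 1 ≤ Real.exp B * Real.exp (-St G t z) := by
      rw [← Real.exp_add]
      refine Real.one_le_exp ?_
      have := hSt z hz t
      rw [abs_of_nonneg ht] at this
      nlinarith [le_abs_self (St G t z)]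
    have h3 : 0 ≤ m * K * (μHE[n] S).toReal * Real.exp (-St G t z) := by positivity
    refine measureReal_le_one.trans ?_
    linarith
  · have h2 : En.fB (US G) (ph G) t ε z ⊆ Vol.cB G t ε z := fun y hy =>
      ⟨hy.1, fun s hs => (hy.2 s hs).le⟩
    have h3 : mu G (Vol.cB G t ε z) ≤
        ENNReal.ofReal (m * (K * Real.exp (-St G t z) * (μHE[n] S).toReal)) := by
      rw [hmu, Vol.nu_slice (Vol.measurableSet_cB _ _ _), ENNReal.ofReal_mul hm.le,
        ENNReal.ofReal_mul (by positivity), ENNReal.ofReal_toReal hM, ← setLIntegral_const]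
      exact mul_le_mul_right (setLIntegral_mono' G.isClosed.measurableSet (h z hz t h1)) _
    refine (ENNReal.toReal_le_of_le_ofReal (by positivity) ((measure_mono h2).trans h3)).trans ?_
    have h4 : 0 ≤ Real.exp B * Real.exp (-St G t z) := by positivity
    linarith

/-- For `t ≥ 2`, `p ∈ S ∩ ball z.1 δ` with lift `x`: every unit `u` with `dd y₀ (gd x u s) < δ` for
some `s > 0` lies in the slice (`seg_up`), `|s - t| ≤ 4δ` (`seg_close`) and
`Dn (p,u) 0 s ≤ K e^{St t z}` (`DnS`, `bowen`), so by `polar`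
`c ≤ vol {dd y₀ · < δ} ≤ nuF(slice) * 8δ K e^{St t z}`; integrate over `p` (`muHE_ball_ge`).
For `t ≤ 2` use `fB 2 ⊆ fB t` and `St_basic`. -/
lemma volLow (hMu : MuS) (hHol : UHolS) (hDn : DnS) : En.VolLow (US G) (ph G) (mu G) (tau G) := by
  intro ε hε
  obtain ⟨δ, c, hδ, hc, h⟩ := Vol.slice_low C H hHol hDn (half_pos hε)
  obtain ⟨-, B, hB, hSt⟩ := St_basic H hHol
  obtain ⟨c', hc', hball⟩ := C.muHE_ball_ge H hδ
  have hP := (hMu n N a S G H).2.2.1
  obtain ⟨m, hm, hmu⟩ := Vol.mu_eq hP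
  have key : ∀ z ∈ US G, ∀ t, 2 ≤ t →
      m * c * c' * Real.exp (-St G t z) ≤ (mu G).real (En.fB (US G) (ph G) t ε z) := by
    intro z hz t ht
    have h2 : Vol.cB G t (ε / 2) z ⊆ En.fB (US G) (ph G) t ε z := fun y hy =>
      ⟨hy.1, fun s hs => (hy.2 s hs).trans_lt (half_lt_self hε)⟩
    have hm' : MeasurableSet (S ∩ Metric.ball z.1 δ) :=
      G.isClosed.measurableSet.inter measurableSet_ball
    have h3 : ENNReal.ofReal (m * (c * Real.exp (-St G t z) * c')) ≤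
        mu G (Vol.cB G t (ε / 2) z) := by
      rw [hmu, Vol.nu_slice (Vol.measurableSet_cB _ _ _), ENNReal.ofReal_mul hm.le,
        ENNReal.ofReal_mul (by positivity)]
      refine mul_le_mul_right ((mul_le_mul_right (hball z.1 hz.1.1) _).trans ?_) _
      rw [← setLIntegral_const]
      exact (setLIntegral_mono' hm' (h z hz t ht)).trans (lintegral_mono_set inter_subset_left)
    refine le_trans (le_of_eq (by ring)) ((ENNReal.ofReal_le_iff_le_toReal (measure_ne_top _ _)).1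
      (h3.trans (measure_mono h2)))
  refine ⟨m * c * c' * Real.exp (-(4 * B)), by positivity, fun z hz t ht => ?_⟩
  change _ * Real.exp (-St G t z) ≤ _
  have h0 : 0 ≤ m * c * c' := by positivity
  rw [mul_assoc, ← Real.exp_add]
  rcases le_total 2 t with h1 | h1
  · exact (mul_le_mul_of_nonneg_left (Real.exp_le_exp.2 (by linarith)) h0).trans (key z hz t h1)
  · have h2 : En.fB (US G) (ph G) 2 ε z ⊆ En.fB (US G) (ph G) t ε z := fun y hy =>
      ⟨hy.1, fun s hs => hy.2 s ⟨hs.1, hs.2.trans h1⟩⟩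
    refine le_trans ?_ ((key z hz 2 le_rfl).trans (measureReal_mono h2))
    refine mul_le_mul_of_nonneg_left (Real.exp_le_exp.2 ?_) h0
    have h3 := hSt z hz t
    have h4 := hSt z hz 2
    rw [abs_of_nonneg ht] at h3
    rw [abs_two] at h4
    nlinarith [le_abs_self (St G 2 z), neg_abs_le (St G t z)]

omit C H in
theorem _root_.Crest.Agent.N221.volS (hCov : CovS) (hMu : MuS) (hHol : UHolS) (hDn : DnS) :
    VolS := fun n N a S G H =>
  (hCov n N a S G H).elim fun C => ⟨C.volUp H hMu hHol hDn, C.volLow H hMu hHol hDn⟩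

end Crest.Agent.N221.Cov
end
end

-- ▼ part N221/All
section

/-!
Row 221: the toolbox instantiated; `S0342` follows from the two core statements
`A1S` (Liouville = Bowen-Margulis makes `U` smooth) and `A2S` (smooth `U` makes `R` parallel).
-/

set_option autoImplicit false

open Set
open scoped ContDiff
open Crest.GeometryTopology.Submanifold
open Crest.Agent.R241.DDefs Crest.Agent.R241.D2
open Crest.Agent.R208.J Crest.Agent.R208.L

namespace Crest.Agent.N221

theorem uHol : UHolS := uHolS ricS uExS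
theorem ju : JuS := juS uExS
theorem dn : DnS := dnS uExS ju
theorem ldetT : LdetS := ldetS uExS
theorem parT : ParS := parS riemS
theorem tauT : TauS := tauS ricS uExS
theorem sys : SysS := sysS uExS
theorem volT : VolS := volS covS muS uHol dn
theorem lps : LpsS := lpsS covS uHol

theorem s0342_of_core (core : CoreS)
    (n N : ℕ) (hn : 3 ≤ n) (S : Set (EuclideanSpace ℝ (Fin N))) (hS : IsSubmanifold n N S)
    (hcpt : IsCompact S) (hconn : IsConnected S)
    (hneg : ∀ p ∈ S, ∀ (f : EuclideanSpace ℝ (Fin n) → EuclideanSpace ℝ (Fin N))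
      (V : Set (EuclideanSpace ℝ (Fin n))), IsLocalParam n N S p f V →
      ∀ u v : EuclideanSpace ℝ (Fin n), 0 < gramDet f 0 u v → secNum f 0 u v < 0)
    (Φ : ℝ → EuclideanSpace ℝ (Fin N) × EuclideanSpace ℝ (Fin N) →
      EuclideanSpace ℝ (Fin N) × EuclideanSpace ℝ (Fin N)) (hΦ : IsGeodesicFlow S Φ) :
    ((ksEntropy (liouville S n) (Φ 1) : EReal) =
      Dynamics.coverEntropy (Φ 1) (unitTangent S)) ↔ CurvatureParallel n N S :=
  s0342_of geoS flowS liouS parT tauT sys volT lps En.sTr En.main core n N hn S hS hcpt hconn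
    hneg Φ hΦ

end Crest.Agent.N221
end

-- ▼ part N221/H/Hor0
section

/-!
Row 221, horospherical jets (helper62): the retraction on `US G` and the displacement map.
-/

set_option autoImplicit false

open MeasureTheory Set Filter Topology Metric
open scoped ContDiff RealInnerProductSpace ENNReal BoundedContinuousFunction
open Crest.GeometryTopology.Submanifold
open Crest.Agent.R241.DDefs Crest.Agent.R241.D2
open Crest.Agent.R208.J Crest.Agent.R208.L
open Crest.Agent.Lib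

noncomputable section

namespace Crest.Agent.N221.H

variable {n N : ℕ} {a : ℝ} {S : Set (Euc N)} (G : Geo n N (-(a ^ 2)) S)

/-- a retraction with orthogonal derivative along `S` -/
structure RO (ρ : Euc N → Euc N) (O : Set (Euc N)) : Prop where
  op : IsOpen O
  sub : S ⊆ O
  sm : ContDiffOn ℝ ∞ ρ O
  maps : MapsTo ρ O S
  eq : ∀ x ∈ S, ρ x = x
  der : ∀ x ∈ S, fderiv ℝ ρ x = G.P x

theorem exists_RO (hS : IsSubmanifold n N S) (hc : IsCompact S) : ∃ ρ O, RO G ρ O := by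
  obtain ⟨R, O, hO, hSO, hR, hRS, hRid⟩ :=
    R208.E.exists_retract (R208.FI.clo_of_isSubmanifold hS hc)
  set m : Euc N → Euc N := fun q => R q + G.P (R q) (q - R q) with hm
  have hmO : ContDiffOn ℝ ∞ m O :=
    hR.add ((G.contDiff_P.comp_contDiffOn hR).clm_apply (contDiffOn_id.sub hR))
  have hmS : ∀ x ∈ S, m x = x := fun x hx => by
    simp only [hm, hRid x hx, sub_self, map_zero, add_zero]
  refine ⟨fun q => R (m q), O ∩ m ⁻¹' O, hmO.continuousOn.isOpen_inter_preimage hO hO,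
    fun x hx => ⟨hSO hx, by rw [mem_preimage, hmS x hx]; exact hSO hx⟩,
    hR.comp (hmO.mono inter_subset_left) fun q hq => hq.2, fun q hq => hRS hq.2,
    fun x hx => by simp only [hmS x hx, hRid x hx], fun x hx => ?_⟩
  obtain ⟨hT, hTid⟩ := R208.MS.retract_fderiv (G := G) hO hSO hR hRS hRid hx
  have hRd : HasFDerivAt R (fderiv ℝ R x) x :=
    ((hR.contDiffAt (hO.mem_nhds (hSO hx))).differentiableAt (by simp)).hasFDerivAt
  have hPd : HasFDerivAt (fun q => G.P (R q)) (fderiv ℝ (fun q => G.P (R q)) x) x :=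
    ((differentiable_P G (R x)).comp x hRd.differentiableAt).hasFDerivAt
  have hmd : HasFDerivAt m (G.P x) x := by
    have hid : HasFDerivAt (fun q : Euc N => q - R q)
        (ContinuousLinearMap.id ℝ _ - fderiv ℝ R x) x := (hasFDerivAt_id x).sub hRd
    refine (hRd.add (hPd.clm_apply hid)).congr_fderiv ?_
    ext1 v
    simp only [add_apply, ContinuousLinearMap.comp_apply, sub_apply, hRid x hx, sub_self,
      map_zero, ContinuousLinearMap.id_apply, add_zero, map_sub]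
    rw [(P_eq_self G hx).1 (hT v)]
    abel
  have hRd' : HasFDerivAt R (fderiv ℝ R x) (m x) := by rw [hmS x hx]; exact hRd
  have h2 : HasFDerivAt (fun q => R (m q)) ((fderiv ℝ R x).comp (G.P x)) x := hRd'.comp x hmd
  rw [h2.fderiv]
  ext1 v
  rw [ContinuousLinearMap.comp_apply, hTid _ (P_mem G hx)]

/-- the retraction on `TS G` -/
def Qm (ρ : Euc N → Euc N) (w : TT N) : TT N := (ρ w.1, G.P (ρ w.1) w.2)

/-- the retraction on `US G` -/
def Pm (ρ : Euc N → Euc N) (w : TT N) : TT N :=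
  ((Qm G ρ w).1, (1 / ‖(Qm G ρ w).2‖) • (Qm G ρ w).2)

/-- its domain -/
def OO (ρ : Euc N → Euc N) (O : Set (Euc N)) : Set (TT N) :=
  Prod.fst ⁻¹' O ∩ Qm G ρ ⁻¹' {w | w.2 ≠ 0}

variable {G} {ρ : Euc N → Euc N} {O : Set (Euc N)} {z : TT N}

namespace RO

variable (h : RO G ρ O)
include h

lemma smQ : ContDiffOn ℝ ∞ (Qm G ρ) (Prod.fst ⁻¹' O) := by
  have h1 : ContDiffOn ℝ ∞ (fun w : TT N => ρ w.1) (Prod.fst ⁻¹' O) :=
    h.sm.comp contDiffOn_fst fun _ hw => hw
  exact h1.prodMk ((G.contDiff_P.comp_contDiffOn h1).clm_apply contDiffOn_snd)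

lemma isOpen : IsOpen (OO G ρ O) :=
  h.smQ.continuousOn.isOpen_inter_preimage (h.op.preimage continuous_fst)
    (isOpen_ne.preimage continuous_snd)

lemma Q_eq (hz : z ∈ US G) : Qm G ρ z = z := by
  rw [Qm, h.eq _ hz.1.1, (P_eq_self G hz.1.1).1 hz.1.2]

lemma P_eq (hz : z ∈ US G) : Pm G ρ z = z := by
  rw [Pm, h.Q_eq hz, hz.2]
  simp

lemma subO : US G ⊆ OO G ρ O := fun z hz =>
  ⟨h.sub hz.1.1, by rw [mem_preimage, h.Q_eq hz]; exact (US_subset_TS0 G hz).2⟩

lemma smP : ContDiffOn ℝ ∞ (Pm G ρ) (OO G ρ O) := by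
  have h1 : ContDiffOn ℝ ∞ (Qm G ρ) (OO G ρ O) := h.smQ.mono inter_subset_left
  exact h1.fst.prodMk ((contDiffOn_const.div (h1.snd.norm ℝ fun w hw => hw.2)
    fun w hw => norm_ne_zero_iff.2 hw.2).smul h1.snd)

lemma P_mem {w : TT N} (hw : w ∈ OO G ρ O) : Pm G ρ w ∈ US G := by
  have h1 := h.maps hw.1
  refine ⟨⟨h1, (G.T _).smul_mem _ (R241.D2.P_mem G h1)⟩, ?_⟩
  rw [Pm, norm_smul, norm_div, norm_one, norm_norm, one_div_mul_cancel (norm_ne_zero_iff.2 hw.2)]

lemma derP (hz : z ∈ US G) : HasFDerivAt (Pm G ρ) (dPi G z) z := by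
  have hx := hz.1.1
  have h1 : HasFDerivAt ρ (G.P z.1) z.1 := h.der _ hx ▸
    ((h.sm.contDiffAt (h.op.mem_nhds (h.sub hx))).differentiableAt (by simp)).hasFDerivAt
  have h2 : HasFDerivAt (fun w : TT N => ρ w.1) _ z := h1.comp z hasFDerivAt_fst
  have h3 : HasFDerivAt G.P (fderiv ℝ G.P z.1) (ρ z.1) := by
    rw [h.eq _ hx]; exact (differentiable_P G _).hasFDerivAt
  have h4 : HasFDerivAt (Qm G ρ) _ z := h2.prodMk ((h3.comp z h2).clm_apply hasFDerivAt_snd)
  have h5 : HasFDerivAt (fun w : TT N => (w.1, (1 / ‖w.2‖) • w.2)) _ z :=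
    hasFDerivAt_fst.prodMk ((hasFDerivAt_tau (US_subset_TS0 G hz).2 1).smul hasFDerivAt_snd)
  rw [← h.Q_eq hz] at h5
  refine (h5.comp z h4).congr_fderiv (ContinuousLinearMap.ext fun u => ?_)
  have e1 : fderiv ℝ G.P z.1 (G.P z.1 u.1) z.2 = dP G z (G.P z.1 u.1) :=
    dP_comm hx (R241.D2.P_mem G hx) hz.1.2
  have e2 : ⟪z.2, dP G z (G.P z.1 u.1)⟫ = 0 := by
    rw [← (P_eq_self G hx).1 hz.1.2, inner_P_left G hx,
      dP_tangent_normal hz.1 (R241.D2.P_mem G hx), inner_zero_right]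
  have e3 : ⟪z.2, G.P z.1 u.2⟫ = ⟪z.2, u.2⟫ := by
    rw [← inner_P_left G hx, (P_eq_self G hx).1 hz.1.2]
  rw [dPi_apply, Pv_apply, h.Q_eq hz]
  simp [h.eq _ hx, hz.2, e1, inner_add_right, e2, e3]
  abel

end RO

/-- restriction to `US G` -/
def toC {B : Type} [TopologicalSpace B] (F : TT N → B) (hF : ContinuousOn F (US G)) : C(US G, B) :=
  ⟨fun z => F z, hF.domRestrict⟩

lemma toC_apply {B : Type} [TopologicalSpace B] (F : TT N → B) (hF : ContinuousOn F (US G))
    (z : US G) : toC F hF z = F z := rfl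

/-- the time `T` map on `US G` -/
def fT (G : Geo n N (-(a ^ 2)) S) (T : ℝ) : C(US G, US G) :=
  ⟨fun z => ⟨fl G (z, T), fl_US z.2 T⟩, (continuousOn_flT T).domRestrict.subtype_mk _⟩

lemma fT_iter (T : ℝ) (z : US G) (k : ℕ) : ((fT G T)^[k] z : TT N) = fl G (z, k * T) := by
  induction k with
  | zero => simp [fl_zero]
  | succ k ih =>
    rw [Function.iterate_succ_apply', Nat.cast_succ, add_mul, one_mul, fl_add' G z.2.1, ← ih]
    rfl

/-- evaluation at the step `0` -/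
def ev0 {K B : Type} [TopologicalSpace K] [CompactSpace K] [NormedAddCommGroup B]
    [NormedSpace ℝ B] : (K × ℕ →ᵇ B) →L[ℝ] C(K, B) :=
  LinearMap.mkContinuous
    { toFun := fun c => ⟨fun z => c (z, 0), by fun_prop⟩
      map_add' := fun _ _ => rfl
      map_smul' := fun _ _ => rfl } 1 fun c => by
    rw [one_mul, ContinuousMap.norm_le _ (norm_nonneg _)]
    exact fun z => c.norm_coe_le_norm _

/-- the displacement map -/
theorem exists_disp [CompactSpace (US G)] (h : RO G ρ O) {r : ℝ} (hr : 0 < r)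
    (hO : ∀ z ∈ US G, ∀ u : TT N, ‖u‖ < r → z + u ∈ OO G ρ O) (T : ℝ) :
    ∃ H : TT N × ℝ → C(US G, TT N), ContDiffOn ℝ ∞ H (ball 0 r) ∧ H 0 = 0 ∧
      (∀ (z : US G) e, fderiv ℝ (fl G) (z, T) (dPi G z e.1, e.2) = fderiv ℝ H 0 e z) ∧
      ∀ (z : US G) e, ‖e‖ < r → H e z = fl G (Pm G ρ (z + e.1), T + e.2) - fl G (z, T) := by
  set g : TT N × ℝ → TT N := fun p => fl G (Pm G ρ p.1, T + p.2) with hg
  set Ω : Set (TT N × ℝ) := Prod.fst ⁻¹' OO G ρ O with hΩ
  have oΩ : IsOpen Ω := h.isOpen.preimage continuous_fst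
  have sg : ContDiffOn ℝ ∞ g Ω := fun p hp =>
    (contDiffAt_fl' G (h.P_mem hp).1 _).comp_contDiffWithinAt
      (f := fun p : TT N × ℝ => (Pm G ρ p.1, T + p.2)) p
      (((h.smP.comp contDiffOn_fst fun _ hw => hw).prodMk (by fun_prop)) p hp)
  set ι0 : C(US G, TT N × ℝ) := ⟨fun z => (z, 0), by fun_prop⟩ with hι
  set c : TT N × ℝ →L[ℝ] C(US G, TT N × ℝ) := ContinuousLinearMap.const ℝ (US G) with hc
  have mem : ∀ e : TT N × ℝ, ‖e‖ < r → ι0 + c e ∈ ODEFlow.mapsIn (US G) Ω := fun e he z =>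
    hO z z.2 e.1 ((norm_fst_le e).trans_lt he)
  have val : ∀ (z : US G) e, ‖e‖ < r → ODEFlow.nem g (ι0 + c e) z =
      fl G (Pm G ρ (z + e.1), T + e.2) := fun z e he => by
    rw [ODEFlow.nem_apply sg.continuousOn (mem e he)]
    simp [hg, hι, hc]
  refine ⟨fun e => ODEFlow.nem g (ι0 + c e) - toC _ (continuousOn_flT T), ?_, ?_, fun z e => ?_,
    fun z e he => ?_⟩
  · exact ((ODEFlow.contDiffOn_nem (n := ⊤) oΩ sg).comp (contDiffOn_const.add c.contDiff.contDiffOn)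
      fun e he => mem e (mem_ball_zero_iff.1 he)).sub contDiffOn_const
  · ext1 z
    rw [ContinuousMap.sub_apply, val z 0 (by simpa using hr)]
    simp [h.P_eq z.2, toC_apply]
  · have m0 := mem 0 (by simpa using hr)
    have h1 := (HasFDerivAt.comp (f := fun e => ι0 + c e) 0
      (ODEFlow.hasFDerivAt_nem oΩ (sg.of_le (by simp)) m0)
      (c.hasFDerivAt.const_add ι0)).sub_const (toC _ (continuousOn_flT (G := G) T))
    have h2 : HasFDerivAt g ((fderiv ℝ (fl G) (z, T)).comp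
        ((dPi G z).prodMap (ContinuousLinearMap.id ℝ ℝ))) (z, 0) := by
      have h3 : HasFDerivAt (fl G) (fderiv ℝ (fl G) (z, T)) (Pm G ρ z, T + 0) := by
        rw [h.P_eq z.2, add_zero]
        exact ((contDiffAt_fl' G z.2.1 T).differentiableAt (by simp)).hasFDerivAt
      have h4 : HasFDerivAt (fun p : TT N × ℝ => Pm G ρ p.1)
          (dPi G z ∘L ContinuousLinearMap.fst ℝ (TT N) ℝ) (z, 0) :=
        HasFDerivAt.comp (f := Prod.fst) ((z : TT N), (0 : ℝ)) (h.derP z.2) hasFDerivAt_fst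
      have h5 : HasFDerivAt (fun p : TT N × ℝ => T + p.2) (ContinuousLinearMap.snd ℝ (TT N) ℝ)
          (z, 0) := hasFDerivAt_snd.const_add T
      exact HasFDerivAt.comp (f := fun p : TT N × ℝ => (Pm G ρ p.1, T + p.2)) _ h3 (h4.prodMk h5)
    erw [h1.fderiv]
    rw [ContinuousLinearMap.comp_apply, ODEFlow.applyB_apply,
      ODEFlow.nem_apply (sg.continuousOn_fderiv_of_isOpen oΩ (by simp)) m0]
    simp only [map_zero, add_zero, hι, ContinuousMap.coe_mk, h2.fderiv]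
    rfl
  · rw [ContinuousMap.sub_apply, val z e he]
    rfl

end Crest.Agent.N221.H
end
end

-- ▼ part N221/H/Hor
section

/-!
Row 221, horospherical jets (helper62): existence of the horospherical structure from the abstract
form of Irwin's theorem.
-/

set_option autoImplicit false

open MeasureTheory Set Filter Topology Metric
open scoped ContDiff RealInnerProductSpace ENNReal BoundedContinuousFunction
open Crest.GeometryTopology.Submanifold
open Crest.Agent.R241.DDefs Crest.Agent.R241.D2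
open Crest.Agent.R208.J Crest.Agent.R208.L
open Crest.Agent.Lib

noncomputable section

namespace Crest.Agent.N221.H

variable {n N : ℕ} {a : ℝ} {S : Set (Euc N)} {G : Geo n N (-(a ^ 2)) S} {z : TT N}

/-- the vertical vector attached to the coordinates -/
def Dq (G : Geo n N (-(a ^ 2)) S) (z : TT N) : YY N →L[ℝ] TT N :=
  (0 : YY N →L[ℝ] Euc N).prod ((U G z + U G (rev z)) ∘L ContinuousLinearMap.fst ℝ _ _)

/-- perturbation at the step `0` -/
def i0 (G : Geo n N (-(a ^ 2)) S) (z : TT N) : Euc N × YY N →L[ℝ] TT N × ℝ :=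
  (ContinuousLinearMap.inl ℝ _ _ ∘L ContinuousLinearMap.fst ℝ _ _ +
    Dq G z ∘L ContinuousLinearMap.snd ℝ _ _).prod
    (ContinuousLinearMap.snd ℝ _ _ ∘L ContinuousLinearMap.snd ℝ _ _)

/-- perturbation at the later steps -/
def i1 (G : Geo n N (-(a ^ 2)) S) (z : TT N) : TT N × YY N →L[ℝ] TT N × ℝ :=
  (ps G z ∘L ContinuousLinearMap.fst ℝ _ _ + iot G z ∘L ContinuousLinearMap.snd ℝ _ _).prod 0

lemma i0_apply (y : Euc N) (c : YY N) : i0 G z (y, c) = ((y, 0) + Dq G z c, c.2) := rfl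

lemma i1_apply (s : TT N) (c : YY N) : i1 G z (s, c) = (ps G z s + iot G z c, 0) := rfl

lemma Dq_apply (c : YY N) : Dq G z c = (0, U G z c.1 + U G (rev z) c.1) := rfl

variable (H : Hyp n N a S)
include H

lemma continuousOn_Dq : ContinuousOn (Dq G) (US G) :=
  cont_prod continuousOn_const (((isU H).cont.add (continuousOn_Um H)).clm_comp continuousOn_const)

lemma continuousOn_i0 : ContinuousOn (i0 G) (US G) :=
  cont_prod (continuousOn_const.add ((continuousOn_Dq H).clm_comp continuousOn_const))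
    continuousOn_const

lemma continuousOn_i1 : ContinuousOn (i1 G) (US G) :=
  cont_prod (((continuousOn_ps H).clm_comp continuousOn_const).add
    ((continuousOn_iot H).clm_comp continuousOn_const)) continuousOn_const

lemma L_i0 (hz : z ∈ US G) (T : ℝ) (c : YY N) :
    fderiv ℝ (fl G) (z, T) (dPi G z (i0 G z (0, c)).1, (i0 G z (0, c)).2) =
      vs G (fl G (z, T)) (PT G z T (Js G z T (-c.1))) +
        iot G (fl G (z, T)) (PT G z T (Ju G z T c.1), c.2) := by
  rw [i0_apply, Dq_apply, Prod.mk_zero_zero, zero_add, dPi_i0 (isU H) hz, fderiv_fl_vec H hz,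
    zero_add]

lemma L_i1 (hz : z ∈ US G) (T : ℝ) (s : TT N) (c : YY N) :
    fderiv ℝ (fl G) (z, T) (dPi G z (i1 G z (s, c)).1, (i1 G z (s, c)).2) =
      vs G (fl G (z, T)) (PT G z T (Js G z T (ps G z s).1)) +
        iot G (fl G (z, T)) (PT G z T (Ju G z T c.1), c.2) := by
  rw [i1_apply, dPi_i1 (isU H) H.a_pos hz, fderiv_fl_vec H hz, add_zero]

/-- contraction of the stable direction -/
lemma exists_T : ∃ T : ℝ, 0 < T ∧ ∀ z ∈ US G,
    (∀ j, ‖vs G (fl G (z, T)) (PT G z T (Js G z T j))‖ ≤ ‖j‖ / 4) ∧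
    ∀ s, ‖vs G (fl G (z, T)) (PT G z T (Js G z T (ps G z s).1))‖ ≤ ‖s‖ / 4 := by
  obtain ⟨C1, h1⟩ := (isCompact_US G H.cpt).exists_bound_of_continuousOn (continuousOn_vs H)
  obtain ⟨C2, h2⟩ := (isCompact_US G H.cpt).exists_bound_of_continuousOn (continuousOn_ps H)
  have ha := H.a_pos
  set A := |C1| + 1 with hA
  set B := |C2| + 1 with hB
  have A0 : 0 < A := by positivity
  have B1 : 1 ≤ B := by linarith [abs_nonneg C2]
  obtain ⟨T, T0, e⟩ : ∃ T : ℝ, 0 < T ∧ A * Real.exp (-(a * T)) * B ≤ 1 / 4 := by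
    refine ⟨4 * A * B / a, by positivity, ?_⟩
    rw [mul_div_cancel₀ _ ha.ne', Real.exp_neg, mul_right_comm, ← div_eq_mul_inv,
      div_le_iff₀ (Real.exp_pos _)]
    linarith [Real.add_one_le_exp (4 * A * B)]
  have key : ∀ z ∈ US G, ∀ j, ‖vs G (fl G (z, T)) (PT G z T (Js G z T j))‖ ≤
      A * Real.exp (-(a * T)) * ‖j‖ := by
    intro z hz j
    refine (ContinuousLinearMap.le_opNorm _ _).trans ?_
    rw [norm_PT hz.1, mul_assoc]
    exact mul_le_mul ((h1 _ (fl_US hz _)).trans (by linarith [le_abs_self C1]))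
      (norm_Js H hz _ T0.le j) (norm_nonneg _) A0.le
  set θ := A * Real.exp (-(a * T)) with hθ
  have θ0 : 0 ≤ θ := by positivity
  refine ⟨_, T0, fun z hz => ⟨fun j => (key z hz j).trans ?_, fun s => (key z hz _).trans ?_⟩⟩
  · nlinarith [norm_nonneg j, mul_le_mul_of_nonneg_left B1 θ0]
  · have h3 : ‖(ps G z s).1‖ ≤ B * ‖s‖ := (norm_fst_le _).trans
      ((ContinuousLinearMap.le_opNorm _ _).trans (mul_le_mul_of_nonneg_right
        ((h2 z hz).trans (by linarith [le_abs_self C2])) (norm_nonneg _)))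
    nlinarith [norm_nonneg s, mul_le_mul_of_nonneg_left h3 θ0]

/-- the fixed point equations make the perturbations consistent -/
lemma two_smul_eq (hz : z ∈ US G) {T : ℝ} (hT : 0 ≤ T) {s g : TT N} {c c' : YY N}
    (h1 : s = (2 : ℝ) • ps G (fl G (z, T)) g)
    (h2 : c = prY G z c - MM G T z (kap G (fl G (z, T)) g - (1 / 2 : ℝ) • c'))
    (h3 : prY G (fl G (z, T)) c' = c') :
    ps G (fl G (z, T)) s + iot G (fl G (z, T)) c' = (2 : ℝ) • g := by
  have h := isU (G := G) H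
  have hz1 := fl_US hz T
  have h4 := congrArg (prY G z) h2
  have h5 : prY G z (prY G z c) = prY G z c := by simp only [prY_apply, Pv_Pv hz]
  rw [map_sub, pr_MM H hz, h5, eq_comm, sub_eq_self] at h4
  have h6 := MM_inj H hz hT h4
  rw [map_sub, map_smul, pr_kap h H.a_pos hz1, h3, sub_eq_zero] at h6
  rw [h1, map_smul, ps_ps h H.a_pos hz1, ps_apply, h6, map_smul, smul_sub, smul_smul]
  simp

lemma pr_fix (hz : z ∈ US G) (T : ℝ) {c w : YY N} (h2 : c = prY G z c - MM G T z w) :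
    prY G z c = c := by
  have h5 : prY G z (prY G z c) = prY G z c := by simp only [prY_apply, Pv_Pv hz]
  conv_lhs => rw [h2, map_sub, pr_MM H hz, h5]
  exact h2.symm

/-- the orbit of the perturbed point -/
lemma orbit_eq {ρ : Euc N → Euc N} {O : Set (Euc N)} (hρ : RO G ρ O) {T r : ℝ} (hT : 0 ≤ T)
    {D : TT N × ℝ → US G → TT N}
    (hD : ∀ (z : US G) e, ‖e‖ < r → D e z = fl G (Pm G ρ (z + e.1), T + e.2) - fl G (z, T))
    (z : US G) {s g : ℕ → TT N} {c : ℕ → YY N} {e : TT N × ℝ} (hm : Pm G ρ (z + e.1) ∈ US G)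
    (n0 : ‖e‖ < r) (e0 : g 0 = D e z)
    (hk : ∀ k : ℕ, ‖i1 G ((fT G T)^[k + 1] z : TT N) (s k, c (k + 1))‖ < r ∧
      ((1 / 2 : ℝ) ^ (k + 1)) • g (k + 1) = D (((1 / 2 : ℝ) ^ (k + 1)) •
        i1 G ((fT G T)^[k + 1] z : TT N) (s k, c (k + 1))) ((fT G T)^[k + 1] z))
    (hs : ∀ k : ℕ, s k = (2 : ℝ) • ps G ((fT G T)^[k + 1] z : TT N) (g k) ∧
      c k = prY G ((fT G T)^[k] z : TT N) (c k) - MM G T ((fT G T)^[k] z : TT N)
        (kap G ((fT G T)^[k + 1] z : TT N) (g k) - (1 / 2 : ℝ) • c (k + 1))) (k : ℕ) :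
    fl G (Pm G ρ (z + e.1), e.2 + (k + 1) * T) =
      fl G (z, (k + 1) * T) + ((1 / 2 : ℝ) ^ (k + 1)) • (2 : ℝ) • g k := by
  induction k with
  | zero =>
    rw [e0, hD z _ n0, smul_smul, add_comm e.2]
    simp
  | succ k ih =>
    have e3 : ((fT G T)^[k + 1] z : TT N) = fl G (((fT G T)^[k] z : TT N), T) := by
      rw [Function.iterate_succ_apply']; rfl
    have e2 := two_smul_eq H ((fT G T)^[k] z).2 hT (e3 ▸ (hs k).1) (e3 ▸ (hs k).2)
      (e3 ▸ pr_fix H ((fT G T)^[k + 1] z).2 T (hs (k + 1)).2)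
    have n1 : ‖((1 / 2 : ℝ) ^ (k + 1)) • i1 G ((fT G T)^[k + 1] z : TT N) (s k, c (k + 1))‖ < r := by
      rw [norm_smul, Real.norm_of_nonneg (by positivity)]
      exact (mul_le_of_le_one_left (norm_nonneg _)
        (pow_le_one₀ (by norm_num) (by norm_num))).trans_lt (hk k).1
    have e4 := (hk k).2
    rw [← e3] at e2
    rw [hD _ _ n1, i1_apply, e2, fT_iter, Prod.smul_fst, Prod.smul_snd, smul_zero, add_zero] at e4
    push_cast at e4 ⊢
    rw [← ih, hρ.P_eq (fl_US hm _), ← fl_add' G hm.1, ← fl_add' G z.2.1] at e4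
    rw [smul_smul, pow_succ _ (k + 1), mul_assoc, show (1 / 2 : ℝ) * 2 = 1 by norm_num, mul_one, e4,
      add_mul ((k : ℝ) + 1), one_mul, ← add_assoc]
    abel

/-- the field `W` -/
lemma exists_W [CompactSpace (US G)] {ρ : Euc N → Euc N} {O : Set (Euc N)} (hρ : RO G ρ O) {r : ℝ}
    {c : Euc N → C(US G, YY N)} (sc : ContDiffOn ℝ ∞ c (ball 0 r))
    (hm : ∀ y ∈ ball (0 : Euc N) r, ∀ z : US G, z + (i0 G z (y, c y z)).1 ∈ OO G ρ O) :
    ∃ W : Euc N → C(US G, Euc N), ContDiffOn ℝ ∞ W (ball 0 r) ∧ ∀ y ∈ ball (0 : Euc N) r,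
      ∀ z : US G, pt ρ W y z = Pm G ρ (z + (i0 G z (y, c y z)).1) := by
  set α : Euc N → C(US G, TT N) := fun y => toC id continuousOn_id +
    (ContinuousLinearMap.const ℝ (US G) (ContinuousLinearMap.inl ℝ (Euc N) (Euc N) y) +
      ODEFlow.applyB (toC _ (continuousOn_Dq H)) (c y)) with hα
  have αm : ∀ y ∈ ball (0 : Euc N) r, α y ∈ ODEFlow.mapsIn (US G) (OO G ρ O) := hm
  have sW : ContDiffOn ℝ ∞ (fun w => (Pm G ρ w).2) (OO G ρ O) := hρ.smP.snd
  have s1 : ContDiff ℝ ∞ fun y : Euc N => (ContinuousLinearMap.const ℝ (US G)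
      (ContinuousLinearMap.inl ℝ (Euc N) (Euc N) y) : C(US G, TT N)) :=
    (ContinuousLinearMap.const ℝ (US G) ∘L ContinuousLinearMap.inl ℝ (Euc N) (Euc N)).contDiff
  have s2 : ContDiffOn ℝ ∞ (fun y => ODEFlow.applyB (toC _ (continuousOn_Dq (G := G) H)) (c y))
      (ball 0 r) := (ODEFlow.applyB (toC _ (continuousOn_Dq (G := G) H))).contDiff.comp_contDiffOn sc
  have sα : ContDiffOn ℝ ∞ α (ball 0 r) := contDiffOn_const.add (s1.contDiffOn.add s2)
  refine ⟨fun y => ODEFlow.nem (fun w => (Pm G ρ w).2) (α y),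
    (ODEFlow.contDiffOn_nem (n := ⊤) hρ.isOpen sW).comp sα αm, fun y hy z =>
      Prod.ext ?_ (ODEFlow.nem_apply sW.continuousOn (αm y hy) z)⟩
  simp [pt, Pm, Qm, i0_apply, Dq_apply]

omit H in
theorem horS (hI : IrwS) : HorS := by
  intro n N a S G _ H
  have h := isU (G := G) H
  have ha := H.a_pos
  obtain ⟨ρ, O, hρ⟩ := exists_RO G H.sub H.cpt
  obtain ⟨r1, hr1, hO1⟩ := (isCompact_US G H.cpt).exists_thickening_subset_open hρ.isOpen hρ.subO
  obtain ⟨r2, hr2, hO2⟩ := H.cpt.exists_thickening_subset_open hρ.op hρ.sub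
  have hO : ∀ z ∈ US G, ∀ u : TT N, ‖u‖ < r1 → z + u ∈ OO G ρ O := fun z hz u hu =>
    hO1 (mem_thickening_iff.2 ⟨z, hz, by simpa using hu⟩)
  obtain ⟨T, hT, hc⟩ := exists_T (G := G) H
  obtain ⟨D, hD, hD0, hDd, hDv⟩ := exists_disp hρ hr1 hO T
  obtain ⟨r', hr', s, c, g, -, sc, sg, -, c0, g0, hfix⟩ := hI (US G) (Euc N) (TT N × ℝ) (TT N)
    (YY N) (fT G T) D r1
    (fun z => fderiv ℝ (fl G) (z, T) ∘L (dPi G z).prodMap (ContinuousLinearMap.id ℝ ℝ))
    (toC _ (continuousOn_i0 H)) (toC _ (continuousOn_i1 H)) (toC _ (continuousOn_ps H))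
    (toC _ (continuousOn_kap H)) (toC _ continuousOn_prY) (toC _ (continuousOn_MM H T))
    hr1 hD hD0 (fun z e => hDd z e) (fun z c => norm_MM H z.2 hT.le c)
    (fun z c => (congrArg (fun w => MM G T z (kap G (fl G (z, T)) w)) (L_i0 H z.2 T c)).trans (by
      rw [kap_vec h ha (fl_US z.2 T), MM_pr H z.2]; rfl))
    (fun z s c => (congrArg (fun w => MM G T z (kap G (fl G (z, T)) w)) (L_i1 H z.2 T s c)).trans (by
      rw [kap_vec h ha (fl_US z.2 T), MM_pr H z.2]; rfl))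
    (fun z c => (congrArg (fun w => ‖ps G (fl G (z, T)) w‖) (L_i0 H z.2 T c)).trans_le (by
      rw [ps_vec h ha (fl_US z.2 T)]
      refine ((hc z z.2).1 _).trans ?_
      rw [norm_neg]
      linarith [norm_fst_le c]))
    (fun z s c => (congrArg (fun w => ‖ps G (fl G (z, T)) w‖) (L_i1 H z.2 T s c)).trans_le (by
      rw [ps_vec h ha (fl_US z.2 T)]
      exact (hc z z.2).2 s))
  have sev : ContDiffOn ℝ ∞ (fun y => ev0 (K := US G) (B := YY N) (c y)) (ball 0 r') :=
    (ev0 (K := US G) (B := YY N)).contDiff.comp_contDiffOn sc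
  have hm : ∀ y ∈ ball (0 : Euc N) r', ∀ z : US G,
      z + (i0 G z (y, ev0 (K := US G) (B := YY N) (c y) z)).1 ∈ OO G ρ O := fun y hy z =>
    hO z z.2 _ ((norm_fst_le _).trans_lt (hfix y hy z).1)
  obtain ⟨W, sW, ptv⟩ := exists_W H hρ sev hm
  have b1 : ball (0 : Euc N) (min r' r2) ⊆ ball 0 r' := ball_subset_ball (min_le_left _ _)
  have b2 : ∀ x ∈ S, ∀ y ∈ ball (0 : Euc N) (min r' r2), x + y ∈ O := fun x hx y hy =>
    hO2 (mem_thickening_iff.2 ⟨x, hx, by simpa using ball_subset_ball (min_le_right _ _) hy⟩)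
  refine ⟨ρ, T, min r' r2, W, fun y => (ContinuousLinearMap.snd ℝ (Euc N) ℝ).compLeftContinuous ℝ
    (US G) (ev0 (c y)), fun y => (2 : ℝ) • g y, hT, ⟨lt_min hr' hr2, fun x hx y hy =>
      hρ.sm.contDiffAt (hρ.op.mem_nhds (b2 x hx y hy)), fun x hx y hy => hρ.maps (b2 x hx y hy),
      hρ.eq⟩, sW.mono b1, ((ContinuousLinearMap.contDiff _).comp_contDiffOn sev).mono b1,
    (sg.const_smul 2).mono b1, fun z => ?_, by simp [c0], by simp [g0],
    fun y hy z => ptv y (b1 hy) z ▸ hρ.P_mem (hm y (b1 hy) z), fun y hy z k => ?_⟩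
  · have h1 := congrArg Prod.snd (ptv 0 (mem_ball_self hr') z)
    rw [c0] at h1
    simpa [pt, i0_apply, Prod.mk_zero_zero, hρ.P_eq z.2] using h1
  · obtain ⟨n0, e0, hk, hs⟩ := hfix y (b1 hy) z
    rw [ptv y (b1 hy)]
    exact orbit_eq H hρ hT.le (D := fun e z => D e z) hDv z (s := fun k => s y (z, k))
      (g := fun k => g y (z, k)) (c := fun k => c y (z, k)) (hρ.P_mem (hm y (b1 hy) z)) n0 e0 hk hs k

end Crest.Agent.N221.H
end
end

-- ▼ part N221/H/Irw
section

/-!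
# Row 221, horospherical jets: smooth fixed points and Irwin's theorem (helper60)
-/

set_option autoImplicit false

open Set Filter Topology Metric
open scoped ContDiff BoundedContinuousFunction

noncomputable section

namespace Crest.Agent.N221.H

namespace Irw

section Fix

variable {Λ B : Type} [NormedAddCommGroup Λ] [NormedSpace ℝ Λ] [NormedAddCommGroup B]
  [NormedSpace ℝ B] [CompleteSpace B]

theorem exists_equiv (T : Λ × B →L[ℝ] B) (h : ‖T.comp (ContinuousLinearMap.inr ℝ Λ B)‖ < 1) :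
    ∃ e : (Λ × B) ≃L[ℝ] (Λ × B), (e : Λ × B →L[ℝ] Λ × B) =
      (ContinuousLinearMap.fst ℝ Λ B).prod (ContinuousLinearMap.snd ℝ Λ B - T) := by
  refine ⟨(ContinuousLinearEquiv.refl ℝ Λ).skewProd
    (ContinuousLinearEquiv.ofUnit (Units.oneSub _ h)) (-T.comp (ContinuousLinearMap.inl ℝ Λ B)), ?_⟩
  refine ContinuousLinearMap.ext fun ⟨y, b⟩ => Prod.ext rfl ?_
  change b - T (0, b) + -T (y, 0) = b - T (y, b)
  rw [show ((y, b) : Λ × B) = (0, b) + (y, 0) by simp, map_add]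
  abel

end Fix

section Fam

variable {A K W V V' : Type} [TopologicalSpace A] [TopologicalSpace K] [CompactSpace K]
  [NormedAddCommGroup W] [NormedSpace ℝ W] [NormedAddCommGroup V] [NormedSpace ℝ V]
  [NormedAddCommGroup V'] [NormedSpace ℝ V']

theorem exists_fam (φ : W → A → V) (C : ℝ) (h1 : ∀ w w' x, φ (w + w') x = φ w x + φ w' x)
    (h2 : ∀ (c : ℝ) w x, φ (c • w) x = c • φ w x) (hc : ∀ w, Continuous (φ w)) (hC : 0 ≤ C)
    (hb : ∀ w x, ‖φ w x‖ ≤ C * ‖w‖) : ∃ L : W →L[ℝ] (A →ᵇ V), ∀ w x, L w x = φ w x :=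
  ⟨LinearMap.mkContinuous
    { toFun := fun w => BoundedContinuousFunction.ofNormedAddCommGroup (φ w) (hc w) _ (hb w)
      map_add' := fun w w' => by ext x; exact h1 w w' x
      map_smul' := fun c w => by ext x; exact h2 c w x } C
    fun w => (BoundedContinuousFunction.norm_le (by positivity)).2 (hb w), fun _ _ => rfl⟩

theorem norm_ap (T : C(K, V →L[ℝ] V')) (z : K) (v : V) : ‖T z v‖ ≤ ‖T‖ * ‖v‖ :=
  ((T z).le_opNorm v).trans (by gcongr; exact T.norm_coe_le_norm z)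

theorem exists_ap (T : C(K, V →L[ℝ] V')) {q : A → K} (hq : Continuous q) {σ : A → A}
    (hσ : Continuous σ) : ∃ L : (A →ᵇ V) →L[ℝ] (A →ᵇ V'), ∀ η x, L η x = T (q x) (η (σ x)) :=
  exists_fam (W := A →ᵇ V) (fun η x => T (q x) (η (σ x))) ‖T‖ (fun _ _ _ => map_add _ _ _)
    (fun _ _ _ => map_smul _ _ _)
    (fun η => (T.continuous.comp hq).clm_apply (η.continuous.comp hσ)) (by positivity)
    fun η x => (norm_ap T _ _).trans (by gcongr; exact η.norm_coe_le_norm _)

end Fam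

end Irw

open Irw

theorem fixS : FixS := by
  intro Λ B _ _ _ _ _ _ Φ Ω hΩ h0 hΦ hΦ0 hq
  set Ψ : Λ × B → Λ × B := fun w => (w.1, w.2 - Φ w) with hΨ
  have hc : ∀ w ∈ Ω, ContDiffAt ℝ ∞ Ψ w := fun w hw =>
    contDiffAt_fst.prodMk (contDiffAt_snd.sub (hΦ.contDiffAt (hΩ.mem_nhds hw)))
  have hd : ∀ w ∈ Ω, ‖(fderiv ℝ Φ w).comp (ContinuousLinearMap.inr ℝ Λ B)‖ < 1 →
      ∃ e : (Λ × B) ≃L[ℝ] (Λ × B), HasFDerivAt Ψ (e : Λ × B →L[ℝ] Λ × B) w := fun w hw h => by
    obtain ⟨e, he⟩ := exists_equiv _ h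
    refine ⟨e, he ▸ hasFDerivAt_fst.prodMk (hasFDerivAt_snd.sub ?_)⟩
    exact ((hΦ.contDiffAt (hΩ.mem_nhds hw)).differentiableAt (by simp)).hasFDerivAt
  obtain ⟨e0, he0⟩ := hd 0 h0 hq
  set e := (hc 0 h0).toOpenPartialHomeomorph Ψ he0 (by simp) with he
  have hs : (0 : Λ × B) ∈ e.source := (hc 0 h0).mem_toOpenPartialHomeomorph_source he0 _
  have hee : ∀ w, e w = Ψ w := fun _ => rfl
  have he00 : e 0 = 0 := by rw [hee]; simp [hΨ, hΦ0]
  have ht : (0 : Λ × B) ∈ e.target := he00 ▸ e.map_source hs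
  have hs0 : e.symm 0 = 0 := by rw [← he00, e.left_inv hs, he00]
  obtain ⟨ρ, hρ, hρs⟩ := Metric.mem_nhds_iff.1 (e.open_source.mem_nhds hs)
  have h1 : ∀ᶠ w in 𝓝 (0 : Λ × B), w ∈ Ω ∧ ‖w‖ < ρ ∧
      ‖(fderiv ℝ Φ w).comp (ContinuousLinearMap.inr ℝ Λ B)‖ < 1 := by
    have h2 : ContinuousAt (fderiv ℝ Φ) 0 :=
      (hΦ.continuousOn_fderiv_of_isOpen hΩ (by simp)).continuousAt (hΩ.mem_nhds h0)
    filter_upwards [hΩ.mem_nhds h0, ball_mem_nhds _ hρ,
      (h2.clm_comp continuousAt_const).norm.eventually (gt_mem_nhds hq)] with w a b c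
    exact ⟨a, mem_ball_zero_iff.1 b, c⟩
  have h3 : Tendsto (fun y : Λ => ((y, 0) : Λ × B)) (𝓝 0) (𝓝 0) :=
    (continuous_id.prodMk continuous_const).tendsto 0
  have h4 : Tendsto e.symm (𝓝 0) (𝓝 0) := by
    have := (e.continuousAt_symm ht).tendsto
    rwa [hs0] at this
  obtain ⟨r, hr, h5⟩ := Metric.mem_nhds_iff.1
    (((h4.comp h3).eventually h1).and ((h3.eventually (e.open_target.mem_nhds ht)).and
      (ball_mem_nhds (0 : Λ) hρ)))
  have h6 : ∀ y ∈ ball (0 : Λ) r, e.symm (y, 0) = (y, (e.symm (y, 0)).2) := fun y hy => by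
    have := congrArg Prod.fst (e.right_inv (h5 hy).2.1)
    exact Prod.ext this rfl
  refine ⟨r, hr, ρ, hρ, fun y => (e.symm (y, 0)).2, fun y hy => ?_, congrArg Prod.snd hs0,
    fun y hy => ?_, fun y hy b hb h => ?_⟩
  · obtain ⟨⟨a, -, c⟩, d, -⟩ := h5 hy
    obtain ⟨e1, he1⟩ := hd _ a c
    exact (contDiffAt_snd.comp y ((e.contDiffAt_symm d he1 (hc _ a)).comp y
      (contDiffAt_id.prodMk contDiffAt_const))).contDiffWithinAt
  · obtain ⟨⟨a, b, -⟩, d, -⟩ := h5 hy
    rw [← h6 y hy]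
    exact ⟨a, (norm_snd_le _).trans_lt b,
      (sub_eq_zero.1 (congrArg Prod.snd (e.right_inv d))).symm⟩
  · have h7 : ((y, b) : Λ × B) ∈ e.source := hρs (by
      rw [← Prod.mk_zero_zero, ← ball_prod_same]
      exact ⟨(h5 hy).2.2, hb⟩)
    have h8 : e (y, b) = (y, 0) := by rw [hee]; simp [hΨ, h]
    change b = (e.symm (y, 0)).2
    rw [← h8, e.left_inv h7]

theorem irwS (hN : NemS) (hH : HadS) (hF : FixS) : IrwS := by
  intro K Λ E F Y _ _ _ _ _ _ _ _ _ _ _ _ _ _ f h r L i0 i1 ps κ pr M hr hh h0 hL a1 a2 a3 a4 a5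
  have := FiniteDimensional.complete ℝ Λ
  have := FiniteDimensional.complete ℝ F
  have := FiniteDimensional.complete ℝ Y
  obtain ⟨gh, g1, g2, g3, g4⟩ := hH K E F h r hr hh
  have q0 : Continuous fun x : K × ℕ => f^[x.2] x.1 :=
    continuous_prod_of_discrete_right.2 fun k => f.continuous.iterate k
  have q1 : Continuous fun x : K × ℕ => f^[x.2 + 1] x.1 :=
    continuous_prod_of_discrete_right.2 fun k => f.continuous.iterate (k + 1)
  have qs : Continuous fun x : K × ℕ => (x.1, x.2 + 1) := by fun_prop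
  set ε : ℕ → Icc (0 : ℝ) 1 := fun k =>
    ⟨(1 / 2) ^ k, by positivity, pow_le_one₀ (by norm_num) (by norm_num)⟩ with hε
  obtain ⟨Ng, n1, n2, n3⟩ := hN (K × ℕ) (K × Icc (0 : ℝ) 1) E F ⟨fun x => (f^[x.2] x.1, ε x.2),
    q0.prodMk ((continuous_of_discreteTopology (f := ε)).comp continuous_snd)⟩ gh r g1
  simp only [ContinuousMap.coe_mk] at n2 n3
  obtain ⟨In, hIn⟩ := exists_fam (W := Λ × ((K × ℕ →ᵇ F) × (K × ℕ →ᵇ Y))) (A := K × ℕ)
    (fun w x => Nat.casesOn (motive := fun _ => E) x.2 (i0 x.1 (w.1, w.2.2 (x.1, 0)))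
      fun k => i1 (f^[k + 1] x.1) (w.2.1 (x.1, k), w.2.2 (x.1, k + 1))) (‖i0‖ + ‖i1‖)
    (by
      rintro w w' ⟨z, _ | k⟩
      exacts [map_add (i0 z) (w.1, w.2.2 (z, 0)) (w'.1, w'.2.2 (z, 0)), map_add (i1 (f^[k + 1] z))
        (w.2.1 (z, k), w.2.2 (z, k + 1)) (w'.2.1 (z, k), w'.2.2 (z, k + 1))])
    (by
      rintro c w ⟨z, _ | k⟩
      exacts [map_smul (i0 z) c (w.1, w.2.2 (z, 0)),
        map_smul (i1 (f^[k + 1] z)) c (w.2.1 (z, k), w.2.2 (z, k + 1))])
    (fun w => continuous_prod_of_discrete_right.2 fun k => by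
      cases k with
      | zero => exact i0.continuous.clm_apply (by fun_prop)
      | succ k =>
        exact (i1.continuous.comp (f.continuous.iterate (k + 1))).clm_apply (by fun_prop))
    (by positivity) (by
      rintro ⟨y, s, c⟩ ⟨z, _ | k⟩
      · refine (norm_ap _ _ _).trans (mul_le_mul (le_add_of_nonneg_right (by positivity))
          (max_le_max le_rfl ((c.norm_coe_le_norm _).trans (le_max_right _ _))) (norm_nonneg _)
          (by positivity))
      · refine (norm_ap _ _ _).trans (mul_le_mul (le_add_of_nonneg_left (by positivity))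
          ((max_le_max (s.norm_coe_le_norm _) (c.norm_coe_le_norm _)).trans (le_max_right _ _))
          (norm_nonneg _) (by positivity)))
  have I0 : ∀ w z, In w (z, 0) = i0 z (w.1, w.2.2 (z, 0)) := fun w z => hIn w (z, 0)
  have I1 : ∀ w z k, In w (z, k + 1) = i1 (f^[k + 1] z) (w.2.1 (z, k), w.2.2 (z, k + 1)) :=
    fun w z k => hIn w (z, k + 1)
  obtain ⟨S, hS⟩ := exists_ap ps q1 continuous_id
  obtain ⟨Kp, hKp⟩ := exists_ap κ q1 continuous_id
  obtain ⟨M0, hM0⟩ := exists_ap M q0 continuous_id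
  obtain ⟨M1, hM1⟩ := exists_ap M q0 qs
  obtain ⟨Pr, hPr⟩ := exists_ap pr q0 continuous_id
  simp only [id] at hS hKp hM0 hPr
  have b0 : (0 : K × ℕ →ᵇ E) ∈ ball 0 r := mem_ball_self hr
  have N0 : Ng 0 = 0 := by
    ext x
    rw [n2 0 b0]
    simp [g2]
  set P1 : (K × ℕ →ᵇ F) →L[ℝ] (K × ℕ →ᵇ F) × (K × ℕ →ᵇ Y) := ((2 : ℝ) • S).prod (-(M0 ∘L Kp))
    with hP1
  set P2 : Λ × ((K × ℕ →ᵇ F) × (K × ℕ →ᵇ Y)) →L[ℝ] (K × ℕ →ᵇ F) × (K × ℕ →ᵇ Y) :=
    (0 : _ →L[ℝ] _).prod ((Pr + (1 / 2 : ℝ) • M1) ∘L ContinuousLinearMap.snd ℝ _ _ ∘L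
      ContinuousLinearMap.snd ℝ _ _) with hP2
  have e1 : ∀ g w x, (P1 g + P2 w).1 x = (2 : ℝ) • ps (f^[x.2 + 1] x.1) (g x) := fun g w x => by
    simp [hP1, hP2, hS]
  have e2 : ∀ g w x, (P1 g + P2 w).2 x = pr (f^[x.2] x.1) (w.2.2 x) - M (f^[x.2] x.1)
      (κ (f^[x.2 + 1] x.1) (g x) - (1 / 2 : ℝ) • w.2.2 (x.1, x.2 + 1)) := fun g w x => by
    simp only [hP1, hP2, Prod.snd_add, ContinuousLinearMap.prod_apply, neg_apply,
      ContinuousLinearMap.comp_apply, add_apply, smul_apply,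
      ContinuousLinearMap.coe_snd', BoundedContinuousFunction.add_apply,
      BoundedContinuousFunction.neg_apply, BoundedContinuousFunction.smul_apply, hM0, hKp, hM1, hPr,
      map_sub, map_smul]
    abel
  have hD : HasFDerivAt (fun w => P1 (Ng (In w)) + P2 w) (P1 ∘L fderiv ℝ Ng 0 ∘L In + P2) 0 := by
    have h1 : HasFDerivAt Ng (fderiv ℝ Ng 0) (In 0) := by
      rw [map_zero]
      exact ((n1.contDiffAt (isOpen_ball.mem_nhds b0)).differentiableAt (by simp)).hasFDerivAt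
    exact (P1.hasFDerivAt.comp _ (h1.comp _ In.hasFDerivAt)).add P2.hasFDerivAt
  have hDN : ∀ ζ x, fderiv ℝ Ng 0 ζ x = L (f^[x.2] x.1) (ζ x) := fun ζ x => by
    rw [n3 0 b0, hL]
    exact g4 _ _ _
  obtain ⟨r', hr', ρ, -, ψ, p1, p2, p3, -⟩ := hF Λ ((K × ℕ →ᵇ F) × (K × ℕ →ᵇ Y))
    (fun w => P1 (Ng (In w)) + P2 w) (In ⁻¹' ball 0 r) (isOpen_ball.preimage In.continuous)
    (by simpa using hr)
    ((P1.contDiff.comp_contDiffOn (n1.comp In.contDiff.contDiffOn fun _ h => h)).add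
      P2.contDiff.contDiffOn) (by simp [N0]) (by
      rw [hD.fderiv]
      refine lt_of_le_of_lt (ContinuousLinearMap.opNorm_le_bound _ (by norm_num : (0 : ℝ) ≤ 1 / 2)
        fun b => ?_) (by norm_num)
      change ‖P1 (fderiv ℝ Ng 0 (In (0, b))) + P2 (0, b)‖ ≤ _
      refine max_le ((BoundedContinuousFunction.norm_le (by positivity)).2 ?_)
        ((BoundedContinuousFunction.norm_le (by positivity)).2 ?_)
      · rintro ⟨z, k⟩
        rw [e1, hDN, norm_smul, Function.iterate_succ_apply', Real.norm_two]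
        cases k with
        | zero =>
          rw [I0]
          change 2 * ‖ps (f z) (L z (i0 z (0, b.2 (z, 0))))‖ ≤ _
          linarith [a4 z (b.2 (z, 0)), b.2.norm_coe_le_norm (z, 0), norm_snd_le b]
        | succ k =>
          rw [I1]
          linarith [a5 (f^[k + 1] z) (b.1 (z, k)) (b.2 (z, k + 1)), b.1.norm_coe_le_norm (z, k),
            norm_fst_le b]
      · rintro ⟨z, k⟩
        rw [e2, hDN, map_sub, Function.iterate_succ_apply']
        have : M (f^[k] z) (κ (f (f^[k] z)) (L (f^[k] z) (In (0, b) (z, k)))) =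
            pr (f^[k] z) (b.2 (z, k)) := by
          cases k with
          | zero => rw [I0]; exact a2 _ _
          | succ k => rw [I1]; exact a3 _ _ _
        rw [this, sub_sub_cancel]
        refine (a1 _ _).trans ?_
        rw [norm_smul, Real.norm_of_nonneg (by norm_num)]
        gcongr
        exact (b.2.norm_coe_le_norm _).trans (norm_snd_le b))
  refine ⟨r', hr', fun y => (ψ y).1, fun y => (ψ y).2, fun y => Ng (In (y, ψ y)), p1.fst, p1.snd,
    n1.comp (In.contDiff.comp_contDiffOn (contDiffOn_id.prodMk p1)) fun y hy => (p3 y hy).1,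
    by simp [p2], by simp [p2], by simp only [p2, Prod.mk_zero_zero, map_zero, N0],
    fun y hy z => ?_⟩
  obtain ⟨m1, -, m2⟩ := p3 y hy
  have m3 : ∀ x, ‖In (y, ψ y) x‖ < r := fun x =>
    ((In (y, ψ y)).norm_coe_le_norm x).trans_lt (mem_ball_zero_iff.1 m1)
  have m4 : ∀ k : ℕ, ((1 / 2 : ℝ) ^ k) • Ng (In (y, ψ y)) (z, k) =
      h (((1 / 2 : ℝ) ^ k) • In (y, ψ y) (z, k)) (f^[k] z) := fun k => by
    rw [n2 _ m1]
    refine (g3 _ (mem_ball_zero_iff.2 (m3 _)) _ (ε k)).trans ?_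
    rw [h0, ContinuousMap.zero_apply, sub_zero]
  refine ⟨I0 (y, ψ y) z ▸ m3 _, ?_, fun k => ⟨I1 (y, ψ y) z k ▸ m3 _, I1 (y, ψ y) z k ▸ m4 _⟩,
    fun k => ⟨?_, ?_⟩⟩
  · have := m4 0
    rwa [pow_zero, one_smul, one_smul, I0] at this
  · exact (congrArg (fun b => b.1 (z, k)) m2).symm.trans (e1 _ _ _)
  · exact (congrArg (fun b => b.2 (z, k)) m2).symm.trans (e2 _ _ _)

end Crest.Agent.N221.H
end
end

-- ▼ part N221/H/Nem
section

/-!
Row 221, horospherical jets: superposition operators and the Hadamard quotient (helper38).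
-/

set_option autoImplicit false
set_option linter.unusedSectionVars false

open MeasureTheory Set Filter Topology Metric
open scoped ContDiff BoundedContinuousFunction

noncomputable section

namespace Crest.Agent.N221.H

namespace Nem

section bcf

variable {A E B : Type} [TopologicalSpace A] [NormedAddCommGroup E] [NormedSpace ℝ E]
  [NormedAddCommGroup B] [NormedSpace ℝ B] {r : ℝ}

open Classical in
/-- superposition operator on bounded continuous functions -/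
def N0 (g : E → B) (η : A →ᵇ E) : A →ᵇ B :=
  if h : ∃ θ : A →ᵇ B, ∀ x, θ x = g (η x) then h.choose else 0

/-- pointwise application -/
def apB : (A →ᵇ (E →L[ℝ] B)) →L[ℝ] (A →ᵇ E) →L[ℝ] (A →ᵇ B) :=
  LinearMap.mkContinuous₂
    (LinearMap.mk₂ ℝ (fun (L : A →ᵇ (E →L[ℝ] B)) (h : A →ᵇ E) =>
        BoundedContinuousFunction.ofNormedAddCommGroup (fun t => L t (h t))
          (L.continuous.clm_apply h.continuous) (‖L‖ * ‖h‖) fun t =>
            (L t).le_of_opNorm_le_of_le (L.norm_coe_le_norm t) (h.norm_coe_le_norm t))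
      (by intros; ext; simp) (by intros; ext; simp) (by intros; ext; simp)
      (by intros; ext; simp)) 1 (by
    intro L h
    rw [one_mul]
    exact (BoundedContinuousFunction.norm_le (by positivity)).2 fun t =>
      (L t).le_of_opNorm_le_of_le (L.norm_coe_le_norm t) (h.norm_coe_le_norm t))

@[simp] lemma apB_apply (L : A →ᵇ (E →L[ℝ] B)) (h : A →ᵇ E) (t : A) : apB L h t = L t (h t) := rfl

lemma mem_ball_apply {η : A →ᵇ E} (hη : η ∈ ball (0 : A →ᵇ E) r) (x : A) : η x ∈ ball (0 : E) r :=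
  mem_ball_zero_iff.2 ((η.norm_coe_le_norm x).trans_lt (mem_ball_zero_iff.1 hη))

variable [FiniteDimensional ℝ E]

lemma N0_apply {g : E → B} (hg : ContinuousOn g (ball 0 r)) {η : A →ᵇ E}
    (hη : η ∈ ball (0 : A →ᵇ E) r) (x : A) : N0 g η x = g (η x) := by
  have := FiniteDimensional.proper_real E
  obtain ⟨C, hC⟩ := (isCompact_closedBall (0 : E) ‖η‖).exists_bound_of_continuousOn
    (hg.mono (closedBall_subset_ball (mem_ball_zero_iff.1 hη)))
  have h : ∃ θ : A →ᵇ B, ∀ x, θ x = g (η x) :=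
    ⟨BoundedContinuousFunction.ofNormedAddCommGroup (fun x => g (η x))
      (hg.comp_continuous η.continuous (mem_ball_apply hη)) C fun x =>
        hC _ (mem_closedBall_zero_iff.2 (η.norm_coe_le_norm x)), fun _ => rfl⟩
  rw [N0, dif_pos h]
  exact h.choose_spec x

lemma continuousOn_N0 {g : E → B} (hg : ContinuousOn g (ball 0 r)) :
    ContinuousOn (N0 (A := A) g) (ball 0 r) := by
  have := FiniteDimensional.proper_real E
  intro α hα
  rw [ContinuousWithinAt, Metric.tendsto_nhds]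
  intro ε hε
  have hf : ∀ a ∈ closedBall (0 : E) ‖α‖, ContinuousAt g a := fun a ha =>
    hg.continuousAt (isOpen_ball.mem_nhds (closedBall_subset_ball (mem_ball_zero_iff.1 hα) ha))
  obtain ⟨δ, hδ, h⟩ := Metric.mem_uniformity_dist.1
    ((isCompact_closedBall (0 : E) ‖α‖).uniformContinuousAt_of_continuousAt g hf
      (Metric.dist_mem_uniformity (half_pos hε)))
  have h1 : ∀ᶠ β in 𝓝[ball 0 r] α, dist β α < δ := nhdsWithin_le_nhds (Metric.ball_mem_nhds α hδ)
  filter_upwards [h1, self_mem_nhdsWithin] with β hβ hβU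
  refine lt_of_le_of_lt ?_ (half_lt_self hε)
  rw [BoundedContinuousFunction.dist_le (half_pos hε).le]
  intro t
  rw [N0_apply hg hα, N0_apply hg hβU, dist_comm]
  have := h (a := α t) (b := β t) (by
    rw [dist_comm]; exact lt_of_le_of_lt (BoundedContinuousFunction.dist_coe_le_dist t) hβ)
  exact le_of_lt (this (mem_closedBall_zero_iff.2 (α.norm_coe_le_norm t)))

lemma hasFDerivAt_N0 {g : E → B} (hg : ContDiffOn ℝ 1 g (ball 0 r)) {α : A →ᵇ E}
    (hα : α ∈ ball (0 : A →ᵇ E) r) : HasFDerivAt (N0 g) (apB (N0 (fderiv ℝ g) α)) α := by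
  have hgc : ContinuousOn g (ball 0 r) := hg.continuousOn
  have hDc : ContinuousOn (fderiv ℝ g) (ball 0 r) :=
    hg.continuousOn_fderiv_of_isOpen isOpen_ball le_rfl
  rw [hasFDerivAt_iff_isLittleO_nhds_zero, Asymptotics.isLittleO_iff]
  intro c hc
  have hcont : ContinuousAt (N0 (A := A) (fderiv ℝ g)) α :=
    (continuousOn_N0 hDc).continuousAt (isOpen_ball.mem_nhds hα)
  have h1 : ∀ᶠ β in 𝓝 α, dist (N0 (A := A) (fderiv ℝ g) β) (N0 (fderiv ℝ g) α) < c ∧
      β ∈ ball (0 : A →ᵇ E) r :=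
    (hcont.eventually (Metric.ball_mem_nhds _ hc)).and (isOpen_ball.mem_nhds hα)
  obtain ⟨δ, hδ, hball⟩ := Metric.eventually_nhds_iff_ball.1 h1
  filter_upwards [Metric.ball_mem_nhds (0 : A →ᵇ E) hδ] with h hh
  have hαh : α + h ∈ Metric.ball α δ := by simpa using hh
  rw [BoundedContinuousFunction.norm_le (by positivity)]
  intro t
  have hseg : ∀ y ∈ segment ℝ (α t) (α t + h t), ∃ β ∈ Metric.ball α δ, β t = y := by
    intro y hy
    rw [segment_eq_image'] at hy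
    obtain ⟨s, hs, rfl⟩ := hy
    refine ⟨α + s • h, ?_, by simp⟩
    simp only [Metric.mem_ball, dist_self_add_left, dist_zero_right] at hh ⊢
    rw [norm_smul, Real.norm_of_nonneg hs.1]
    exact lt_of_le_of_lt (mul_le_of_le_one_left (norm_nonneg _) hs.2) hh
  show ‖N0 g (α + h) t - N0 g α t - N0 (fderiv ℝ g) α t (h t)‖ ≤ _
  rw [N0_apply hgc (hball _ hαh).2, N0_apply hgc hα, N0_apply hDc hα]
  have key := (convex_segment (α t) (α t + h t)).norm_image_sub_le_of_norm_hasFDerivWithin_le'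
    (f := g) (f' := fderiv ℝ g) (φ := fderiv ℝ g (α t)) (C := c)
    (x := α t) (y := α t + h t) ?_ ?_ (left_mem_segment _ _ _) (right_mem_segment _ _ _)
  · simp only [add_sub_cancel_left] at key
    refine key.trans ?_
    gcongr
    exact h.norm_coe_le_norm t
  · intro y hy
    obtain ⟨β, hβ, rfl⟩ := hseg y hy
    exact ((hg.differentiableOn one_ne_zero).differentiableAt (isOpen_ball.mem_nhds
      (mem_ball_apply (hball β hβ).2 t))).hasFDerivAt.hasFDerivWithinAt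
  · intro y hy
    obtain ⟨β, hβ, rfl⟩ := hseg y hy
    have h3 := (BoundedContinuousFunction.dist_coe_le_dist t).trans_lt (hball β hβ).1
    rw [N0_apply hDc (hball β hβ).2, N0_apply hDc hα, dist_eq_norm] at h3
    exact h3.le

lemma contDiffOn_N0_nat (n : ℕ) : ∀ {B : Type} [NormedAddCommGroup B] [NormedSpace ℝ B]
    {g : E → B}, ContDiffOn ℝ n g (ball 0 r) → ContDiffOn ℝ n (N0 (A := A) g) (ball 0 r) := by
  induction n with
  | zero =>
    intro B _ _ g hg
    simp only [Nat.cast_zero, contDiffOn_zero] at hg ⊢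
    exact continuousOn_N0 hg
  | succ n ih =>
    intro B _ _ g hg
    push_cast at hg ⊢
    have h1 : ContDiffOn ℝ 1 g (ball 0 r) := hg.of_le le_add_self
    have hD := ((contDiffOn_succ_iff_fderiv_of_isOpen isOpen_ball).1 hg).2.2
    rw [contDiffOn_succ_iff_fderiv_of_isOpen isOpen_ball]
    refine ⟨fun α hα => (hasFDerivAt_N0 h1 hα).differentiableAt.differentiableWithinAt,
      by simp, ?_⟩
    have h3 : ContDiff ℝ n (fun L : A →ᵇ (E →L[ℝ] B) => (apB L : (A →ᵇ E) →L[ℝ] (A →ᵇ B))) := by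
      fun_prop
    have h2 : ContDiffOn ℝ n (fun α : A →ᵇ E => apB (N0 (fderiv ℝ g) α)) (ball 0 r) :=
      h3.comp_contDiffOn (ih hD)
    exact h2.congr fun α hα => (hasFDerivAt_N0 h1 hα).fderiv

lemma contDiffOn_N0 {g : E → B} (hg : ContDiffOn ℝ ∞ g (ball 0 r)) :
    ContDiffOn ℝ ∞ (N0 (A := A) g) (ball 0 r) :=
  contDiffOn_infty.2 fun n => contDiffOn_N0_nat n (contDiffOn_infty.1 hg n)

end bcf

variable {A K E F : Type} [TopologicalSpace A] [TopologicalSpace K] [CompactSpace K]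
  [NormedAddCommGroup E] [NormedSpace ℝ E] [NormedAddCommGroup F] [NormedSpace ℝ F]

/-- evaluation along `p` -/
def evP (p : C(A, K)) : (A →ᵇ C(K, F)) →L[ℝ] (A →ᵇ F) :=
  LinearMap.mkContinuous
    { toFun := fun θ => BoundedContinuousFunction.ofNormedAddCommGroup (fun x => θ x (p x))
        (θ.continuous.eval p.continuous) ‖θ‖ fun x =>
          ((θ x).norm_coe_le_norm _).trans (θ.norm_coe_le_norm x)
      map_add' := by intros; ext; simp
      map_smul' := by intros; ext; simp } 1 (by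
    intro θ
    rw [one_mul]
    exact (BoundedContinuousFunction.norm_le (norm_nonneg _)).2 fun x =>
      ((θ x).norm_coe_le_norm _).trans (θ.norm_coe_le_norm x))

lemma evP_apply (p : C(A, K)) (θ : A →ᵇ C(K, F)) (x : A) : evP p θ x = θ x (p x) := rfl

/-- `e ↦ (k ↦ a k • e)` -/
def sc (a : C(K, ℝ)) : E →L[ℝ] C(K, E) :=
  LinearMap.mkContinuous
    { toFun := fun e => ⟨fun k => a k • e, a.continuous.smul continuous_const⟩
      map_add' := by intros; ext; simp
      map_smul' := by intros; ext; simp [smul_comm (a _)] } ‖a‖ (by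
    intro e
    rw [ContinuousMap.norm_le _ (by positivity)]
    intro k
    exact (norm_smul_le (a k) e).trans
      (mul_le_mul_of_nonneg_right (a.norm_coe_le_norm k) (norm_nonneg _)))

lemma sc_apply (a : C(K, ℝ)) (e : E) (k : K) : sc a e k = a k • e := rfl

open Crest.Agent.Lib.ODEFlow

lemma cont_J (Θ : C(I × I, C(K, F))) :
    Continuous fun q : (K × I) × ℝ => Θ (pr q.2, q.1.2) q.1.1 :=
  (Θ.continuous.comp ((continuous_projIcc.comp continuous_snd).prodMk continuous_fst.snd)).eval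
    continuous_fst.fst

lemma cont_J1 (Θ : C(I × I, C(K, F))) (q : K × I) : Continuous fun s : ℝ => Θ (pr s, q.2) q.1 :=
  (cont_J Θ).comp (Continuous.prodMk_right q)

/-- integration in the first variable -/
def J : C(I × I, C(K, F)) →L[ℝ] C(K × I, F) :=
  LinearMap.mkContinuous
    { toFun := fun Θ => ⟨fun q => ∫ s in (0 : ℝ)..1, Θ (pr s, q.2) q.1,
        intervalIntegral.continuous_parametric_intervalIntegral_of_continuous' (cont_J Θ) 0 1⟩
      map_add' := fun Θ Θ' => by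
        ext q
        exact intervalIntegral.integral_add ((cont_J1 Θ q).intervalIntegrable _ _)
          ((cont_J1 Θ' q).intervalIntegrable _ _)
      map_smul' := fun c Θ => by
        ext q
        exact intervalIntegral.integral_smul c fun s => Θ (pr s, q.2) q.1 } 1 (by
    intro Θ
    rw [ContinuousMap.norm_le _ (by positivity)]
    intro q
    have h1 : ‖∫ s in (0 : ℝ)..1, Θ (pr s, q.2) q.1‖ ≤ ‖Θ‖ * |(1 : ℝ) - 0| :=
      intervalIntegral.norm_integral_le_of_norm_le_const fun s _ =>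
        (ContinuousMap.norm_coe_le_norm _ _).trans (Θ.norm_coe_le_norm _)
    simpa using h1)

lemma J_apply (Θ : C(I × I, C(K, F))) (q : K × I) :
    J Θ q = ∫ s in (0 : ℝ)..1, Θ (pr s, q.2) q.1 := rfl

/-- `(s, ε) ↦ s ε` -/
def mu1 : C(I × I, ℝ) := ⟨fun q => q.1 * q.2, by fun_prop⟩

lemma sc_mu_mem {r : ℝ} {e : E} (he : e ∈ ball (0 : E) r) : sc mu1 e ∈ mapsIn (I × I) (ball 0 r) := by
  intro q
  rw [mem_ball_zero_iff] at he ⊢
  refine lt_of_le_of_lt ?_ he
  rw [sc_apply, norm_smul]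
  refine mul_le_of_le_one_left (norm_nonneg _) ?_
  show ‖(q.1 : ℝ) * q.2‖ ≤ 1
  rw [Real.norm_of_nonneg (mul_nonneg q.1.2.1 q.2.2.1)]
  exact mul_le_one₀ q.1.2.2 q.2.2.1 q.2.2.2

end Nem

open Nem Crest.Agent.Lib.ODEFlow

theorem nemS : NemS := by
  intro A K E F _ _ _ _ _ _ _ _ p g r hg
  refine ⟨fun η => evP p (N0 g η), (evP p).contDiff.comp_contDiffOn (contDiffOn_N0 hg),
    fun η hη x => ?_, fun η hη ζ x => ?_⟩
  · rw [evP_apply, N0_apply hg.continuousOn hη]
  · have h1 : ContDiffOn ℝ 1 g (ball 0 r) := hg.of_le (by exact_mod_cast le_top)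
    have h := (evP (F := F) p).hasFDerivAt.comp η (hasFDerivAt_N0 h1 hη)
    rw [show fderiv ℝ (fun η => evP p (N0 g η)) η = _ from h.fderiv,
      ContinuousLinearMap.comp_apply, evP_apply, apB_apply,
      N0_apply (h1.continuousOn_fderiv_of_isOpen isOpen_ball le_rfl) hη]

theorem hadS : HadS := by
  intro K E F _ _ _ _ _ _ _ h r hr hh
  have hD : ContDiffOn ℝ ∞ (fderiv ℝ h) (ball 0 r) := hh.fderiv_of_isOpen isOpen_ball (by simp)
  have h0 : (0 : E) ∈ ball (0 : E) r := mem_ball_self hr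
  have h3 : ContDiff ℝ ∞ (fun L : C(I × I, E →L[ℝ] C(K, F)) =>
      (applyB L : C(I × I, E) →L[ℝ] C(I × I, C(K, F)))) := by fun_prop
  have h4 : ContDiffOn ℝ ∞ (fun e : E => nem (fderiv ℝ h) (sc mu1 e)) (ball 0 r) :=
    (contDiffOn_nem (K := I × I) isOpen_ball hD).comp (sc (E := E) mu1).contDiff.contDiffOn
      fun _ he => sc_mu_mem he
  have hΦ : ContDiffOn ℝ ∞ (fun e : E => (applyB (nem (fderiv ℝ h) (sc mu1 e)) :
      C(I × I, E) →L[ℝ] C(I × I, C(K, F)))) (ball 0 r) := h3.comp_contDiffOn h4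
  have hΘ : ∀ e ∈ ball (0 : E) r, ∀ (e' : E) (q : I × I),
      applyB (nem (fderiv ℝ h) (sc mu1 e)) (sc 1 e') q = fderiv ℝ h (((q.1 : ℝ) * q.2) • e) e' := by
    intro e he e' q
    rw [applyB_apply, nem_apply hD.continuousOn (sc_mu_mem he), sc_apply, sc_apply,
      ContinuousMap.one_apply, one_smul]
    rfl
  refine ⟨fun e => J (applyB (nem (fderiv ℝ h) (sc mu1 e)) (sc 1 e)),
    (J (K := K) (F := F)).contDiff.comp_contDiffOn
      (hΦ.clm_apply (sc (E := E) (1 : C(I × I, ℝ))).contDiff.contDiffOn),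
    by simp only [map_zero], fun e he z ε => ?_, fun e z ε => ?_⟩
  · rw [J_apply, ← intervalIntegral.integral_smul]
    refine (intervalIntegral.integral_eq_sub_of_hasDerivAt (f := fun s : ℝ => h ((s * ε) • e) z)
      (fun s hs => ?_) (((cont_J1 _ (z, ε)).const_smul (ε : ℝ)).intervalIntegrable _ _)).trans ?_
    · rw [uIcc_of_le zero_le_one] at hs
      have e1 : ((pr s : I) : ℝ) = s := by rw [pr, projIcc_of_mem zero_le_one hs]
      have hm : (s * ε) • e ∈ ball (0 : E) r := sc_mu_mem he (⟨s, hs⟩, ε)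
      have d1 : HasDerivAt (fun s : ℝ => (s * ε) • e) ((ε : ℝ) • e) s := by
        simpa using ((hasDerivAt_id s).mul_const (ε : ℝ)).smul_const e
      have d2 := ((hh.differentiableOn (by simp)).differentiableAt
        (isOpen_ball.mem_nhds hm)).hasFDerivAt.comp_hasDerivAt s d1
      have d3 := (ContinuousMap.evalCLM ℝ z).hasFDerivAt.comp_hasDerivAt s d2
      rw [Pi.smul_apply, hΘ e he, e1]
      rw [map_smul, map_smul] at d3
      exact d3
    · simp
  · have d1 := ((hΦ.differentiableOn (by simp)).differentiableAt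
      (isOpen_ball.mem_nhds h0)).hasFDerivAt.clm_apply (sc (E := E) (1 : C(I × I, ℝ))).hasFDerivAt
    have d2 := (J (K := K) (F := F)).hasFDerivAt.comp (0 : E) d1
    rw [show fderiv ℝ (fun e => J (applyB (nem (fderiv ℝ h) (sc mu1 e)) (sc 1 e))) 0 = _ from d2.fderiv]
    simp only [ContinuousLinearMap.comp_apply, map_zero (sc _),
      map_zero (ContinuousLinearMap.flip _), add_zero]
    have := hΘ 0 h0 e
    rw [map_zero] at this
    rw [J_apply]
    simp only [this, smul_zero, intervalIntegral.integral_const, sub_zero, one_smul]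

end Crest.Agent.N221.H
end
end

-- ▼ part N221/H/DHor
section

/-! Row 221, block H (helper48): first derivatives of the horospherical structure and smoothness
of `U ∘ rev` along the weak stable leaves (`dHorS`). -/

set_option autoImplicit false

open MeasureTheory Set Filter Topology Metric
open scoped ContDiff RealInnerProductSpace ENNReal BoundedContinuousFunction
open Crest.GeometryTopology.Submanifold
open Crest.Agent.R241.DDefs Crest.Agent.R241.D2
open Crest.Agent.R208.J Crest.Agent.R208.L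
open Crest.Agent.Lib.ODEFlow

noncomputable section

namespace Crest.Agent.N221.H

namespace DH

section abstract

variable {E F : Type*} [NormedAddCommGroup E] [NormedSpace ℝ E]
  [NormedAddCommGroup F] [NormedSpace ℝ F]

lemma hda_line {f : E → F} {y : E} (hf : DifferentiableAt ℝ f y) (η : E) :
    HasDerivAt (fun s : ℝ => f (y + s • η)) (fderiv ℝ f y η) 0 :=
  hf.hasFDerivAt.hasLineDerivAt η

lemma ev_line {U : Set E} {y : E} (hU : U ∈ 𝓝 y) (η : E) :
    ∀ᶠ s : ℝ in 𝓝 0, y + s • η ∈ U := by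
  have h : Continuous fun s : ℝ => y + s • η := by fun_prop
  have h2 := h.continuousAt (x := 0)
  rw [ContinuousAt, zero_smul, add_zero] at h2
  exact h2 hU

variable {K : Type*} [TopologicalSpace K] [CompactSpace K]

lemma contDiff_compLeft (L : E →L[ℝ] F) :
    ContDiff ℝ ∞ fun f : C(K, E) => L.compLeftContinuous ℝ K f :=
  (L.compLeftContinuous ℝ K).contDiff

lemma contDiff_pair : ∃ Φ : C(K, E) × C(K, F) → C(K, E × F), ContDiff ℝ ∞ Φ ∧
    ∀ f z, Φ f z = (f.1 z, f.2 z) :=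
  ⟨_, ((contDiff_compLeft (ContinuousLinearMap.inl ℝ E F)).comp contDiff_fst).add
    ((contDiff_compLeft (ContinuousLinearMap.inr ℝ E F)).comp contDiff_snd),
    fun _ _ => Prod.ext (add_zero _) (zero_add _)⟩

variable [FiniteDimensional ℝ E]

/-- linear version of `sw` -/
def swL : (E →L[ℝ] C(K, F)) →ₗ[ℝ] C(K, E →L[ℝ] F) where
  toFun L := ⟨fun z => (ContinuousMap.evalCLM ℝ z) ∘L L, by
    rw [continuous_clm_apply]
    intro e
    exact (L e).continuous⟩
  map_add' _ _ := by ext; rfl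
  map_smul' _ _ := by ext; rfl

lemma norm_swL (L : E →L[ℝ] C(K, F)) : ‖swL L‖ ≤ 1 * ‖L‖ := by
  rw [one_mul, ContinuousMap.norm_le _ (norm_nonneg _)]
  intro z
  refine ContinuousLinearMap.opNorm_le_bound _ (norm_nonneg _) fun e => ?_
  exact ((L e).norm_coe_le_norm z).trans (L.le_opNorm e)

/-- an operator with values in continuous functions as a continuous family of operators -/
def sw : (E →L[ℝ] C(K, F)) →L[ℝ] C(K, E →L[ℝ] F) :=
  LinearMap.mkContinuous (𝕜 := ℝ) (𝕜₂ := ℝ) (E := E →L[ℝ] C(K, F)) (F := C(K, E →L[ℝ] F))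
    swL 1 norm_swL

lemma contDiff_sw : ContDiff ℝ ∞ fun L : E →L[ℝ] C(K, F) => sw L := by fun_prop

lemma smooth_pair (base : C(K, E)) {W : E → C(K, F)} {s : Set E} (hs : IsOpen s)
    (hW : ContDiffOn ℝ ∞ W s) : ∃ γ : E → C(K, E × (E →L[ℝ] F)), ContDiffOn ℝ ∞ γ s ∧
      ∀ y z, (γ y z).1 = base z + y ∧ ∀ e, (γ y z).2 e = fderiv ℝ W y e z := by
  obtain ⟨Φ, hΦ, hΦ'⟩ := contDiff_pair (K := K) (E := E) (F := E →L[ℝ] F)
  have h1 : ContDiff ℝ ∞ fun y : E => base + ContinuousLinearMap.const ℝ K y :=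
    contDiff_const.add (ContinuousLinearMap.const ℝ K : E →L[ℝ] C(K, E)).contDiff
  have h2 : ContDiffOn ℝ ∞ (fderiv ℝ W) s := hW.fderiv_of_isOpen hs (by simp)
  refine ⟨fun y => Φ (base + ContinuousLinearMap.const ℝ K y, sw (fderiv ℝ W y)),
    hΦ.comp_contDiffOn (h1.contDiffOn.prodMk (contDiff_sw.comp_contDiffOn h2)), fun y z => ?_⟩
  rw [hΦ']
  exact ⟨rfl, fun _ => rfl⟩

omit [FiniteDimensional ℝ E] in
lemma hda_eval {f : E → C(K, F)} {y : E} (hf : DifferentiableAt ℝ f y) (η : E) (z : K) :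
    HasDerivAt (fun s : ℝ => f (y + s • η) z) (fderiv ℝ f y η z) 0 :=
  (ContinuousMap.evalCLM ℝ z : C(K, F) →L[ℝ] F).hasFDerivAt.comp_hasDerivAt (0 : ℝ)
    (hda_line hf η)

omit [FiniteDimensional ℝ E] [CompactSpace K] in
lemma hda_evalB {f : E → (K →ᵇ F)} {y : E} (hf : DifferentiableAt ℝ f y) (η : E) (z : K) :
    HasDerivAt (fun s : ℝ => f (y + s • η) z) (fderiv ℝ f y η z) 0 :=
  (BoundedContinuousFunction.evalCLM ℝ z : (K →ᵇ F) →L[ℝ] F).hasFDerivAt.comp_hasDerivAt (0 : ℝ)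
    (hda_line hf η)

end abstract

variable {n N : ℕ} {a : ℝ} {S : Set (Euc N)} {G : Geo n N (-(a ^ 2)) S} {q : TT N}

lemma fderiv_fl (hq : q ∈ TS G) (t b : ℝ) (ξ : TT N) :
    fderiv ℝ (fl G) (q, t) (ξ, b) = Dfl G q t ξ + b • X G (fl G (q, t)) := by
  have h1 : HasDerivAt (fun s : ℝ => (q, s)) ((0 : TT N), (1 : ℝ)) t :=
    (hasDerivAt_const _ _).prodMk (hasDerivAt_id t)
  have h2 := ((contDiffAt_fl' G hq t).differentiableAt
    (by simp)).hasFDerivAt.comp_hasDerivAt t h1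
  have h3 := h2.unique (hasDerivAt_fl G (complete G hq t))
  rw [← h3, Dfl, ← map_smul, ← map_add]
  simp

/-- a Jacobi field which decays up to a multiple of the velocity is stable -/
lemma stable_jac (H : Hyp n N a S) (hq : q ∈ US G) {A B : Euc N} (hA : A ∈ G.T q.1)
    (hB : B ∈ Vp G q) {b : ℝ} {t : ℕ → ℝ} (ht : Tendsto t atTop atTop)
    (h : Tendsto (fun k => Wj G q A B (t k) + b • q.2) atTop (𝓝 0)) :
    B = -U G (rev q) A ∧ b = -⟪q.2, A⟫ := by
  have hU := uExS n N a S G H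
  have hr := rev_US hq
  have hE := UDn.det_E_pos hU H.a_pos hq
  obtain ⟨j, hj⟩ := ((UDn.E G q).toContinuousLinearEquivOfDetNeZero hE.ne').surjective
    (B + U G (rev q) A)
  rw [ContinuousLinearMap.toContinuousLinearEquivOfDetNeZero_apply, UDn.E_apply] at hj
  have hj2 : U G q j + U G (rev q) j = B + U G (rev q) A := by
    have h1 := congrArg (Pv G q) hj
    rwa [map_add, map_add, map_add, map_sub, Pv_Pv hq, sub_self, add_zero, hU.Pv_comp hq,
      Pv_of_mem hq.1 (UDn.rev_mem' hU hq j), Pv_of_mem hq.1 hB,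
      Pv_of_mem hq.1 (UDn.rev_mem' hU hq A)] at h1
  have hv : IsJac (Rh G q) (fun _ => ⟪q.2, A⟫ • q.2) (fun _ => 0) :=
    ⟨fun t => hasDerivAt_const _ _, fun t => by
      rw [map_smul, Rh_velocity hq.1, smul_zero, neg_zero]
      exact hasDerivAt_const _ _⟩
  have mP : ∀ x, Pv G q x ∈ G.T q.1 := fun x => (mem_Vp.1 (Pv_mem hq.1 hq.2 x)).1
  have hdec : ∀ s, Wj G q A B s = Ju G q s j + Js G q s (A - j) + ⟪q.2, A⟫ • q.2 := by
    intro s
    refine ((isJac_Wj hq.1 hA (mem_Vp.1 hB).1).unique (contDiff_Rh hq.1).continuous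
      (((isJac_Ju hU hq j).add (isJac_Js hU hq (A - j))).add hv) (t₀ := 0) ?_ ?_ s).1
    · simp only [Ju_apply, Js_apply, Wj_zero]
      rw [← map_add, add_sub_cancel, Pv_apply, (P_eq_self G hq.1.1).1 hA, sub_add_cancel]
    · rw [Wj'_zero hq.1 hA (mem_Vp.1 hB).1, Wj'_zero hq.1 (mP _) (mem_Vp.1 (hU.mem hq j)).1,
        Wj'_zero hq.1 (mP _) (mem_Vp.1 (neg_mem (UDn.rev_mem' hU hq (A - j)))).1, add_zero,
        map_sub, neg_sub, ← add_sub_assoc, hj2, add_sub_cancel_right]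
  have hJs : ∀ s, Js G q s (A - j) = Ju G (rev q) (-s) (A - j) := fun s => (Js_rev hU hq s _).1
  have hmu : ∀ s, ⟪Ju G q s j, q.2⟫ = 0 := fun s => (mem_Vp.1 (Ju_mem H.cpt hU hq s j)).2
  have hms : ∀ s, ⟪Js G q s (A - j), q.2⟫ = 0 := fun s => by
    have h1 := Ju_mem H.cpt hU hr (-s) (A - j)
    rw [Vp_rev, ← hJs] at h1
    exact (mem_Vp.1 h1).2
  have hb : b = -⟪q.2, A⟫ := by
    have h1 := h.inner (𝕜 := ℝ) (tendsto_const_nhds (x := q.2))
    have h2 : ∀ k, ⟪Wj G q A B (t k) + b • q.2, q.2⟫ = ⟪q.2, A⟫ + b := fun k => by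
      rw [hdec, inner_add_left, inner_add_left, inner_add_left, hmu, hms, real_inner_smul_left,
        real_inner_smul_left, real_inner_self_eq_norm_sq, show ‖q.2‖ = 1 from hq.2]
      ring
    simp only [h2, inner_zero_left] at h1
    have h3 := tendsto_nhds_unique h1 tendsto_const_nhds
    linarith
  refine ⟨?_, hb⟩
  have h2 : Tendsto (fun k => Ju G q (t k) j + Js G q (t k) (A - j)) atTop (𝓝 0) := by
    refine h.congr fun k => ?_
    rw [hdec, hb, neg_smul, add_neg_cancel_right]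
  have h3 : Pv G q j = 0 := by
    by_contra hne
    have hpos : 0 < ‖Pv G q j‖ := norm_pos_iff.2 hne
    have h4 : Tendsto (fun k => Real.exp (a * t k) * ‖Pv G q j‖) atTop atTop :=
      (Real.tendsto_exp_atTop.comp (ht.const_mul_atTop H.a_pos)).atTop_mul_const hpos
    have h5 := h4.eventually_gt_atTop (1 + ‖Ju G (rev q) 0 (A - j)‖)
    have h6 := h2.norm.eventually (gt_mem_nhds (show ‖(0 : Euc N)‖ < 1 by simp))
    obtain ⟨k, hk1, hk2, hk3⟩ := (h5.and (h6.and (ht.eventually_ge_atTop 0))).exists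
    have h7 := Ju_lower H.cpt hU hq j hk3
    rw [Ju_zero, sub_zero] at h7
    have h8 := Ju_lower H.cpt hU hr (A - j) (neg_nonpos.2 hk3)
    rw [← hJs] at h8
    have h9 : 1 ≤ Real.exp (a * (0 - -t k)) :=
      Real.one_le_exp (mul_nonneg H.a_pos.le (by linarith))
    have h10 := norm_sub_le (Ju G q (t k) j + Js G q (t k) (A - j)) (Js G q (t k) (A - j))
    rw [add_sub_cancel_right] at h10
    have h11 := mul_le_mul_of_nonneg_right h9 (norm_nonneg (Js G q (t k) (A - j)))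
    linarith
  have h4 : U G q j = 0 := by rw [← hU.comp_Pv q hq, h3, map_zero]
  have h5 : U G (rev q) j = 0 := by rw [← hU.comp_Pv _ hr, Pv_rev, h3, map_zero]
  rw [h4, h5, add_zero] at hj2
  exact eq_neg_of_add_eq_zero_left hj2.symm

variable [CompactSpace (US G)] {ρ : Euc N → Euc N} {T r : ℝ} {W : Euc N → C(US G, Euc N)}
  {β : Euc N → C(US G, ℝ)} {u : Euc N → (US G × ℕ →ᵇ TT N)}

theorem deriv_eq (H : Hyp n N a S) (h : IsHor G ρ T r W β u) {y : Euc N}
    (hy : y ∈ ball (0 : Euc N) r) (z : US G) (η : Euc N) :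
    G.P (pt ρ W y z).1 (fderiv ℝ W y η z) =
        -U G (rev (pt ρ W y z)) (fderiv ℝ ρ ((z : TT N).1 + y) η) ∧
      fderiv ℝ β y η z = -⟪W y z, fderiv ℝ ρ ((z : TT N).1 + y) η⟫ := by
  have hn := isOpen_ball.mem_nhds hy
  have hev := ev_line hn η
  have hw := h.mem y hy z
  have dρ : HasDerivAt (fun s : ℝ => ρ ((z : TT N).1 + (y + s • η)))
      (fderiv ℝ ρ ((z : TT N).1 + y) η) 0 := by
    simp only [← add_assoc]
    exact hda_line ((h.ret.smooth _ z.2.1.1 y hy).differentiableAt (by simp)) η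
  have dW : HasDerivAt (fun s : ℝ => W (y + s • η) z) (fderiv ℝ W y η z) 0 :=
    hda_eval ((h.smW.contDiffAt hn).differentiableAt (by simp)) η z
  have dβ : HasDerivAt (fun s : ℝ => β (y + s • η) z) (fderiv ℝ β y η z) 0 :=
    hda_eval ((h.smβ.contDiffAt hn).differentiableAt (by simp)) η z
  have du : ∀ k : ℕ, HasDerivAt (fun s : ℝ => u (y + s • η) (z, k)) (fderiv ℝ u y η (z, k)) 0 :=
    fun k => hda_evalB ((h.smu.contDiffAt hn).differentiableAt (by simp)) η (z, k)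
  set A := fderiv ℝ ρ ((z : TT N).1 + y) η with hA
  set D := fderiv ℝ W y η z with hD
  set b := fderiv ℝ β y η z with hb
  set w := pt ρ W y z with hwdef
  have dc : HasDerivAt (fun s : ℝ => pt ρ W (y + s • η) z) (A, D) 0 := dρ.prodMk dW
  have hc0 : pt ρ W (y + (0 : ℝ) • η) z = w := by rw [zero_smul, add_zero]
  have htan : R208.J.TanTS G w (A, D) :=
    ⟨_, hc0, dc, hev.mono fun s hs => (h.mem _ hs z).1⟩
  have hAm : A ∈ G.T w.1 := htan.fst_mem
  have hsnd : D = dP G w A + G.P w.1 D := by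
    rw [add_comm]
    exact htan.snd_eq
  have hw2 : w.2 = W y z := rfl
  have hDv : ⟪D, w.2⟫ = 0 := by
    have h1 := dW.inner ℝ dW
    have h2 : (fun s : ℝ => ⟪W (y + s • η) z, W (y + s • η) z⟫) =ᶠ[𝓝 0] fun _ => (1 : ℝ) := by
      filter_upwards [hev] with s hs
      have h3 : ‖W (y + s • η) z‖ = 1 := (h.mem _ hs z).2
      rw [real_inner_self_eq_norm_sq, h3, one_pow]
    have h3 := (h1.congr_of_eventuallyEq h2.symm).unique (hasDerivAt_const (0 : ℝ) (1 : ℝ))
    rw [zero_smul, add_zero, ← hw2, real_inner_comm] at h3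
    linarith
  have hB : G.P w.1 D ∈ Vp G w := mem_Vp.2 ⟨P_mem G hw.1.1, by
    rw [inner_P_left G hw.1.1, (P_eq_self G hw.1.1).1 hw.1.2, hDv]⟩
  have key : ∀ k : ℕ, ‖Wj G w A (G.P w.1 D) (β y z + (k + 1) * T) + b • w.2‖ ≤
      (1 / 2 : ℝ) ^ (k + 1) * ‖fderiv ℝ u y η‖ := by
    intro k
    set t := β y z + (k + 1) * T with ht
    have h1 : HasDerivAt (fun s : ℝ => (pt ρ W (y + s • η) z, β (y + s • η) z + (k + 1) * T))
        ((A, D), b) 0 := dc.prodMk (dβ.add_const _)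
    have h2 : HasFDerivAt (fl G) (fderiv ℝ (fl G) (w, t))
        (pt ρ W (y + (0 : ℝ) • η) z, β (y + (0 : ℝ) • η) z + (k + 1) * T) := by
      rw [zero_smul, add_zero]
      exact ((contDiffAt_fl' G hw.1 t).differentiableAt (by simp)).hasFDerivAt
    have h3 := h2.comp_hasDerivAt (0 : ℝ) h1
    have h4 := ((du k).const_smul ((1 / 2 : ℝ) ^ (k + 1))).const_add (fl G (z, (k + 1) * T))
    have h5 := (h3.congr_of_eventuallyEq (by
      filter_upwards [hev] with s hs
      exact (h.orbit _ hs z k).symm)).unique h4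
    rw [fderiv_fl hw.1] at h5
    have h6 := congrArg Prod.fst h5
    have h7 : Wj G w A (G.P w.1 D) t + b • w.2 =
        PTi G w t (Dfl G w t (A, D) + b • X G (fl G (w, t))).1 := by
      have h8 : (Dfl G w t (A, D) + b • X G (fl G (w, t))).1 =
          JF G w (A, D) t + b • (fl G (w, t)).2 := rfl
      rw [h8, map_add, map_smul, ← PT_velocity hw.1, PTi_PT hw.1, Wj, ← hsnd]
    rw [h7, norm_PTi hw.1, h6]
    refine (norm_fst_le _).trans ?_
    rw [norm_smul, Real.norm_of_nonneg (by positivity)]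
    exact mul_le_mul_of_nonneg_left (BoundedContinuousFunction.norm_coe_le_norm _ _)
      (by positivity)
  have ht : Tendsto (fun k : ℕ => β y z + (k + 1) * T) atTop atTop :=
    tendsto_atTop_add_const_left _ _
      ((tendsto_atTop_add_const_right _ _ tendsto_natCast_atTop_atTop).atTop_mul_const h.T_pos)
  have hlim : Tendsto (fun k : ℕ => (1 / 2 : ℝ) ^ (k + 1) * ‖fderiv ℝ u y η‖) atTop (𝓝 0) := by
    have h1 := ((tendsto_pow_atTop_nhds_zero_of_lt_one (r := (1 / 2 : ℝ)) (by norm_num)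
      (by norm_num)).comp (tendsto_add_atTop_nat 1)).mul_const ‖fderiv ℝ u y η‖
    rwa [zero_mul] at h1
  exact stable_jac H hw hAm hB ht (squeeze_zero_norm key hlim)

/-- invertible extension of the differential of the retraction -/
def Q (G : Geo n N (-(a ^ 2)) S) (ρ : Euc N → Euc N) (p : Euc N) : Op N :=
  fderiv ℝ ρ p ∘L G.P (ρ p) + (ContinuousLinearMap.id ℝ (Euc N) - G.P (ρ p))

omit [CompactSpace (US G)] in
lemma Q_apply (p e : Euc N) :
    Q G ρ p e = fderiv ℝ ρ p (G.P (ρ p) e) + (e - G.P (ρ p) e) := rfl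

omit [CompactSpace (US G)] in
lemma contDiffAt_Q {p : Euc N} (hp : ContDiffAt ℝ ∞ ρ p) : ContDiffAt ℝ ∞ (Q G ρ) p := by
  have h1 : ContDiffAt ℝ ∞ (fun p => G.P (ρ p)) p := G.contDiff_P.contDiffAt.comp p hp
  exact ((hp.fderiv_right (by simp)).clm_comp h1).add (contDiffAt_const.sub h1)

omit [CompactSpace (US G)] in
lemma Q_self (h : Ret S ρ r) {x : Euc N} (hx : x ∈ S) :
    Q G ρ x = ContinuousLinearMap.id ℝ (Euc N) := by
  ext1 e
  have hd : DifferentiableAt ℝ ρ x := by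
    have := (h.smooth x hx 0 (mem_ball_self h.r_pos)).differentiableAt (by simp)
    rwa [add_zero] at this
  obtain ⟨c, h0, h1, h2⟩ := exists_curve G hx (P_mem G (v := e) hx)
  have h3 : HasFDerivAt ρ (fderiv ℝ ρ x) (c 0) := by
    rw [h0]
    exact hd.hasFDerivAt
  have h4 := ((h3.comp_hasDerivAt (0 : ℝ) h1).congr_of_eventuallyEq
    (h2.mono fun s hs => (h.eq _ hs).symm)).unique h1
  rw [Q_apply, h.eq x hx, h4, add_sub_cancel]
  rfl

omit [CompactSpace (US G)] in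
lemma fderiv_mem (h : Ret S ρ r) {x y : Euc N} (hx : x ∈ S) (hy : y ∈ ball (0 : Euc N) r)
    (η : Euc N) : fderiv ℝ ρ (x + y) η ∈ G.T (ρ (x + y)) := by
  have h1 := hda_line ((h.smooth _ hx y hy).differentiableAt (by simp)) η
  have h2 := G.deriv_mem _ _ 0 ((ev_line (isOpen_ball.mem_nhds hy) η).mono fun s hs => by
    rw [add_assoc]
    exact h.mem x hx _ hs) h1
  simpa using h2

omit [CompactSpace (US G)] in
lemma fderiv_inverse (h : Ret S ρ r) {x y : Euc N} (hx : x ∈ S) (hy : y ∈ ball (0 : Euc N) r)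
    (hQ : (Q G ρ (x + y)).IsInvertible) {e : Euc N} (he : e ∈ G.T (ρ (x + y))) :
    fderiv ℝ ρ (x + y) ((Q G ρ (x + y)).inverse e) = e := by
  have hp := h.mem x hx y hy
  have h1 := hQ.self_apply_inverse e
  set η := (Q G ρ (x + y)).inverse e
  rw [Q_apply] at h1
  have h2 := congrArg (G.P (ρ (x + y))) h1
  rw [map_add, map_sub, P_idem G hp, sub_self, add_zero,
    (P_eq_self G hp).1 (fderiv_mem h hx hy _), (P_eq_self G hp).1 he] at h2
  rw [h2, add_eq_left, sub_eq_zero] at h1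
  rw [h1, h2]

omit [CompactSpace (US G)] in
lemma exists_nbhd (hc : IsCompact S) (h : Ret S ρ r) : ∃ Ω : Set (Euc N), IsOpen Ω ∧
    (∀ p ∈ Ω, ContDiffAt ℝ ∞ ρ p ∧ (Q G ρ p).IsInvertible) ∧
    ∃ δ > 0, δ ≤ r ∧ ∀ x ∈ S, ∀ y ∈ ball (0 : Euc N) δ, x + y ∈ Ω := by
  set O : Set (Euc N) := {p | ∃ x ∈ S, ∃ y ∈ ball (0 : Euc N) r, x + y = p} with hO
  have hOo : IsOpen O := IsOpen.add_left (s := S) isOpen_ball
  have hOs : ∀ p ∈ O, ContDiffAt ℝ ∞ ρ p := by
    rintro _ ⟨x, hx, y, hy, rfl⟩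
    exact h.smooth x hx y hy
  have hΩo : IsOpen (O ∩ (fun p => (Q G ρ p).det) ⁻¹' {0}ᶜ) := by
    refine ContinuousOn.isOpen_inter_preimage (fun p hp => ?_) hOo isOpen_compl_singleton
    exact (ContinuousLinearMap.continuous_det.continuousAt.comp
      (contDiffAt_Q (hOs p hp)).continuousAt).continuousWithinAt
  have hSΩ : S ⊆ O ∩ (fun p => (Q G ρ p).det) ⁻¹' {0}ᶜ := fun x hx =>
    ⟨⟨x, hx, 0, mem_ball_self h.r_pos, add_zero x⟩, by
      simp [Q_self h hx, ContinuousLinearMap.det]⟩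
  obtain ⟨δ, hδ, hth⟩ := hc.exists_thickening_subset_open hΩo hSΩ
  refine ⟨_, hΩo, fun p hp => ⟨hOs p hp.1, (Q G ρ p).toContinuousLinearEquivOfDetNeZero hp.2,
    ContinuousLinearMap.coe_toContinuousLinearEquivOfDetNeZero _ _⟩, min δ r, lt_min hδ h.r_pos,
    min_le_right _ _, fun x hx y hy => hth (mem_thickening_iff.2 ⟨x, hx, ?_⟩)⟩
  have := ball_subset_ball (min_le_left _ _) hy
  simpa [dist_eq_norm] using this

/-- the formula for the second fundamental form of the horospheres -/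
def gA (G : Geo n N (-(a ^ 2)) S) (ρ : Euc N → Euc N) (p : Euc N × Op N) : Op N :=
  -(G.P (ρ p.1) ∘L p.2 ∘L (Q G ρ p.1).inverse ∘L G.P (ρ p.1))

omit [CompactSpace (US G)] in
lemma gA_apply (p : Euc N × Op N) (e : Euc N) :
    gA G ρ p e = -G.P (ρ p.1) (p.2 ((Q G ρ p.1).inverse (G.P (ρ p.1) e))) := rfl

omit [CompactSpace (US G)] in
lemma contDiffAt_gA {p : Euc N × Op N} (h0 : ContDiffAt ℝ ∞ ρ p.1)
    (hinv : (Q G ρ p.1).IsInvertible) : ContDiffAt ℝ ∞ (gA G ρ) p := by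
  have h1 : ContDiffAt ℝ ∞ (fun p : Euc N × Op N => G.P (ρ p.1)) p :=
    (G.contDiff_P.contDiffAt.comp p.1 h0).comp p contDiffAt_fst
  have h2 : ContDiffAt ℝ ∞ (fun p : Euc N × Op N => (Q G ρ p.1).inverse) p :=
    ((hinv.contDiffAt_map_inverse).comp p.1 (contDiffAt_Q h0)).comp p contDiffAt_fst
  exact (h1.clm_comp (contDiffAt_snd.clm_comp (h2.clm_comp h1))).neg

theorem smooth_U (H : Hyp n N a S) (h : IsHor G ρ T r W β u) :
    ∃ r' > 0, r' ≤ r ∧ ∃ A : Euc N → C(US G, Op N), ContDiffOn ℝ ∞ A (ball 0 r') ∧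
      ∀ y ∈ ball (0 : Euc N) r', ∀ z : US G, A y z = U G (rev (pt ρ W y z)) := by
  have hU := uExS n N a S G H
  obtain ⟨Ω, hΩo, hΩ, δ, hδ, hδr, hin⟩ := exists_nbhd (G := G) H.cpt h.ret
  have hgs : ContDiffOn ℝ ∞ (gA G ρ) (Ω ×ˢ univ) := fun p hp =>
    (contDiffAt_gA (hΩ _ hp.1).1 (hΩ _ hp.1).2).contDiffWithinAt
  obtain ⟨γ, hγs, hγ⟩ := smooth_pair
    (⟨fun z => (z : TT N).1, by fun_prop⟩ : C(US G, Euc N)) isOpen_ball h.smW
  have hγ1 : ∀ y (z : US G), (γ y z).1 = (z : TT N).1 + y := fun y z => (hγ y z).1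
  have hsub : ball (0 : Euc N) δ ⊆ ball 0 r := ball_subset_ball hδr
  have hmaps : ∀ y ∈ ball (0 : Euc N) δ, γ y ∈ mapsIn (US G) (Ω ×ˢ univ) := fun y hy z =>
    ⟨by rw [hγ1]; exact hin _ z.2.1.1 y hy, mem_univ _⟩
  have hnem : ContDiffOn ℝ ∞ (nem (K := US G) (gA G ρ)) (mapsIn (US G) (Ω ×ˢ univ)) :=
    contDiffOn_nem (n := ⊤) (hΩo.prod isOpen_univ) hgs
  refine ⟨δ, hδ, hδr, fun y => nem (gA G ρ) (γ y), hnem.comp (hγs.mono hsub) hmaps,
    fun y hy z => ?_⟩
  rw [nem_apply hgs.continuousOn (hmaps y hy)]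
  ext1 e
  have hw := h.mem y (hsub hy) z
  have hr := rev_US hw
  have h1 := (deriv_eq H h (hsub hy) z
    ((Q G ρ ((z : TT N).1 + y)).inverse (G.P (ρ ((z : TT N).1 + y)) e))).1
  rw [fderiv_inverse h.ret z.2.1.1 (hsub hy) (hΩ _ (hin _ z.2.1.1 y hy)).2 (P_mem G hw.1.1)] at h1
  have h2 : Pv G (rev (pt ρ W y z)) (G.P (ρ ((z : TT N).1 + y)) e) =
      Pv G (rev (pt ρ W y z)) e := by
    have h3 : (rev (pt ρ W y z)).1 = ρ ((z : TT N).1 + y) := rfl
    rw [Pv_apply, Pv_apply, ← h3, P_idem G hr.1.1, ← inner_P_left G hr.1.1,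
      (P_eq_self G hr.1.1).1 hr.1.2]
  rw [← hU.comp_Pv _ hr, h2, hU.comp_Pv _ hr, ← neg_eq_iff_eq_neg] at h1
  rw [gA_apply, hγ1, (hγ y z).2]
  exact h1

end DH

theorem dHorS : DHorS := fun _ _ _ _ _ _ H _ _ _ _ _ _ h =>
  ⟨fun _ hy z η => DH.deriv_eq H h hy z η, DH.smooth_U H h⟩

end Crest.Agent.N221.H
end
end

-- ▼ part N221/H/Uniq

/-! Row 221, block H (helper48): expansiveness from one point (`uniqS`) and the splitting of
`ldet` (`splitS`). -/

set_option autoImplicit false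

open MeasureTheory Set Filter Topology Metric
open scoped ContDiff RealInnerProductSpace ENNReal BoundedContinuousFunction
open Crest.GeometryTopology.Submanifold
open Crest.Agent.R241.DDefs Crest.Agent.R241.D2
open Crest.Agent.R208.J Crest.Agent.R208.L

noncomputable section

namespace Crest.Agent.N221.H

theorem uniqS (hC : CovS) : UniqS := by
  intro n N a S G H
  obtain ⟨C⟩ := hC n N a S G H
  obtain ⟨ε₀, hε₀, hl⟩ := C.lift_close H
  refine ⟨ε₀, hε₀, fun w hw w' hw' h1 s hs hd => ?_⟩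
  obtain ⟨x, hx, hv⟩ := C.exists_un hw
  have e : (C.pr x, w.2) = w := by rw [hx]
  have e' : (C.pr x, w'.2) = w' := by rw [hx, h1]
  have hv' : C.Un x w'.2 := by
    unfold Cov.Un
    rw [e']
    exact hw'
  have hm := Cov.Un.mem C hv
  have hm' := Cov.Un.mem C hv'
  have key : ∀ t, 0 ≤ t → ‖t • w.2 - (t + s) • w'.2‖ ≤ 2 * ε₀ := by
    intro t ht
    have h2 := hl ε₀ le_rfl (C.gd x w.2) (fun u => C.gd x w'.2 (u + s)) 0 t
      (C.contDiff_gd_t _ _).continuous.continuousOn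
      ((C.contDiff_gd_t _ _).continuous.comp (by fun_prop)).continuousOn
      (by rw [C.gd_zero, zero_add, Cov.Un.dd_gd_zero C hv']; linarith)
      (fun u hu => by
        rw [C.pr_gd hm, C.pr_gd hm', e, e', ← dist_eq_norm]
        exact hd u hu.1) t ⟨ht, le_rfl⟩
    have h3 := C.lg_sub_le H.a_pos.le x (C.gd x w.2 t) (C.gd x w'.2 (t + s))
    have h4 : C.lg x (C.gd x w.2 t) = t • w.2 := C.lg_ex x _ ((G.T _).smul_mem _ hm)
    have h5 : C.lg x (C.gd x w'.2 (t + s)) = (t + s) • w'.2 :=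
      C.lg_ex x _ ((G.T _).smul_mem _ hm')
    rw [h4, h5] at h3
    exact h3.trans h2
  refine Prod.ext h1 ?_
  by_contra hne
  have hpos : 0 < ‖w.2 - w'.2‖ := norm_pos_iff.2 (sub_ne_zero.2 hne)
  have ht : 0 ≤ (3 * ε₀ + 1) / ‖w.2 - w'.2‖ := by positivity
  have h4 := key _ ht
  have h5 : ((3 * ε₀ + 1) / ‖w.2 - w'.2‖) • (w.2 - w'.2) =
      (((3 * ε₀ + 1) / ‖w.2 - w'.2‖) • w.2 - ((3 * ε₀ + 1) / ‖w.2 - w'.2‖ + s) • w'.2) +
        s • w'.2 := by
    rw [smul_sub, add_smul]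
    abel
  have h6 := norm_add_le
    (((3 * ε₀ + 1) / ‖w.2 - w'.2‖) • w.2 - ((3 * ε₀ + 1) / ‖w.2 - w'.2‖ + s) • w'.2) (s • w'.2)
  rw [← h5, norm_smul, norm_smul, Real.norm_of_nonneg ht, div_mul_cancel₀ _ hpos.ne',
    show ‖w'.2‖ = 1 from hw'.2, mul_one, Real.norm_eq_abs] at h6
  linarith

theorem splitS (hSys : SysS) (hVol : VolS) (hLps : LpsS) : SplitS := by
  intro n N a S G H h α hα hcob
  obtain ⟨hc, -, hfl⟩ := ldetS uExS n N a S G H
  obtain ⟨-, -, hd⟩ := En.main _ (US G) (ph G) (mu G) (tau G) (hSys n N a S G H)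
    (hVol n N a S G H).1 (hVol n N a S G H).2 (hLps n N a S G H)
  have hr : Continuous (rev : TT N → TT N) := continuous_fst.prodMk continuous_snd.neg
  set g : TT N → ℝ := fun q => ldet G q - α q - α (rev q) with hg
  have hgc : ContinuousOn g (US G) :=
    (hc.sub hα).sub (hα.comp hr.continuousOn fun q hq => rev_US hq)
  have hinv : ∀ q ∈ US G, ∀ t, g (ph G t q) = g q := by
    intro q hq t
    have h1 := hfl q hq t
    have h2 := hcob q hq t
    have h3 := hcob (rev q) (rev_US hq) (-t)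
    have h4 : ph G (-t) (rev q) = rev (ph G t q) := by
      unfold ph
      rw [fl_rev' hq.1, neg_neg]
    rw [h4] at h3
    have h5 : ldet G (ph G t q) = ldet G (fl G (q, t)) := rfl
    simp only [hg]
    rw [h5]
    linarith
  rcases (US G).eq_empty_or_nonempty with he | ⟨q0, hq0⟩
  · exact ⟨0, fun q hq => by rw [he] at hq; exact hq.elim⟩
  obtain ⟨z, hz, hbi⟩ := closure_nonempty_iff.1 ⟨q0, hd hq0⟩
  refine ⟨g z, fun q hq => ?_⟩
  have hcl : q ∈ closure {y | y ∈ US G ∧ g y = g z} := by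
    rw [Metric.mem_closure_iff]
    intro ε hε
    obtain ⟨⟨t, -, ht⟩, -⟩ := hbi q hq ε hε 0
    exact ⟨ph G t z, ⟨fl_US hz t, hinv z hz t⟩, by rwa [dist_comm]⟩
  have hclosed : IsClosed {y | y ∈ US G ∧ g y = g z} :=
    hgc.preimage_isClosed_of_isClosed (isClosed_US G) (isClosed_singleton (x := g z))
  have h1 := (hclosed.closure_subset hcl).2
  simp only [hg] at h1 ⊢
  linarith

end Crest.Agent.N221.H
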